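import Crest.Agent.R259.Defs

/-! Row 259: the substitutions `z = z0`, `z = z0 + ε`; lowest terms. -/

set_option autoImplicit false

noncomputable section

namespace Crest.Agent.R259

open Finset

theorem hahn_C_dvd {T : Type*} [CommRing T] (ε : T) (G : HahnSeries ℤ T)
    (h : ∀ n, ε ∣ G.coeff n) : HahnSeries.C ε ∣ G := by
  classical
  choose q hq using h
  refine ⟨⟨fun n => if G.coeff n = 0 then 0 else q n, G.isPWO_support.mono ?_⟩, ?_⟩
  · intro n hn
    simp only [Function.mem_support] at hn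
    intro h0
    exact hn (if_pos h0)
  · ext n
    rw [HahnSeries.C_mul_eq_smul, HahnSeries.coeff_smul]
    by_cases h0 : G.coeff n = 0
    · simp [h0]
    · simp only [h0, if_false, smul_eq_mul]
      exact hq n

theorem ev_const (z0 : ℂˣ) (p : LP) :
    PowerSeries.constantCoeff (evz z0 p) = Polynomial.C (ev0 z0 p) := by
  have h : (PowerSeries.constantCoeff (R := Polynomial ℂ)).comp (evz z0) =
      Polynomial.C.comp (ev0 z0) := by
    refine IsLocalization.ringHom_ext (Submonoid.powers (Polynomial.X : Polynomial ℂ)) ?_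
    have ha : ∀ q : Polynomial ℂ, algebraMap (Polynomial ℂ) LP q = Polynomial.toLaurent q :=
      fun q => rfl
    refine Polynomial.ringHom_ext (fun a => ?_) ?_
    · simp only [RingHom.comp_apply, ha, evz, ev0, LaurentPolynomial.eval₂_toLaurent,
        Polynomial.eval₂_C]
      simp [cT]
    · simp only [RingHom.comp_apply, ha, evz, ev0, LaurentPolynomial.eval₂_toLaurent,
        Polynomial.eval₂_X]
      simp [cT, eps]
  exact congrArg (fun φ => φ p) h

theorem eps_dvd_evz_sub (z0 : ℂˣ) (p : LP) : eps ∣ evz z0 p - cT (ev0 z0 p) := by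
  show PowerSeries.X ∣ _
  rw [PowerSeries.X_dvd_iff, map_sub, ev_const]
  simp [cT]

theorem evz_C (z0 : ℂˣ) (a : ℂ) : evz z0 (LaurentPolynomial.C a) = cT a := by
  exact LaurentPolynomial.eval₂_C _ _ a

theorem isUnit_evz (z0 : ℂˣ) (p : LP) (h : ev0 z0 p ≠ 0) : IsUnit (evz z0 p) := by
  rw [PowerSeries.isUnit_iff_constantCoeff, ev_const]
  exact (IsUnit.mk0 _ h).map Polynomial.C

theorem C_eps_dvd_sub (z0 : ℂˣ) (F : AA) :
    HahnSeries.C eps ∣ hmap (evz z0) F - hmap cT (hmap (ev0 z0) F) := by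
  refine hahn_C_dvd _ _ fun n => ?_
  rw [HahnSeries.coeff_sub]
  exact eps_dvd_evz_sub z0 _

theorem hmap_evz_iK (z0 : ℂˣ) (c : KK) : hmap (evz z0) (iK c) = hmap cT c := by
  refine HahnSeries.ext (funext fun n => ?_)
  exact evz_C z0 _

theorem hmap_ev0_ne_zero (z0 : ℂˣ) (F : AA) (h : ev0 z0 F.leadingCoeff ≠ 0) :
    hmap (ev0 z0) F ≠ 0 := by
  intro h0
  apply h
  by_cases hF : F = 0
  · rw [hF]; simp
  · have := congrArg (fun G => HahnSeries.coeff G F.order) h0
    rw [HahnSeries.leadingCoeff_eq]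
    exact this

/-- `HahnSeries.isUnit_iff`; the leading coefficient is `evz z0 F.leadingCoeff`. -/
theorem isUnit_hmap_evz (z0 : ℂˣ) (F : AA) (h : ev0 z0 F.leadingCoeff ≠ 0) :
    IsUnit (hmap (evz z0) F) := by
  have hu := isUnit_evz z0 _ h
  rw [HahnSeries.isUnit_iff]
  have hc : (hmap (evz z0) F).coeff F.order = evz z0 F.leadingCoeff := by
    rw [HahnSeries.leadingCoeff_eq]
    rfl
  have hne : (hmap (evz z0) F).coeff F.order ≠ 0 := by
    rw [hc]
    exact hu.ne_zero
  have hG : hmap (evz z0) F ≠ 0 := HahnSeries.ne_zero_of_coeff_ne_zero hne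
  have ho : (hmap (evz z0) F).order = F.order := by
    refine le_antisymm (HahnSeries.order_le_of_coeff_ne_zero hne) ?_
    refine HahnSeries.order_le_of_coeff_ne_zero fun h0 => ?_
    apply (HahnSeries.coeff_order_eq_zero.not.2 hG)
    rw [hmap_coeff, h0, map_zero]
  rw [HahnSeries.leadingCoeff_eq, ho, hc]
  exact hu

/-- a nonzero Laurent polynomial has finitely many roots. -/
theorem exists_points (r : ℕ) (p : LP) (hp : p ≠ 0) :
    ∃ z : Fin r → ℂˣ, Function.Injective z ∧ ∀ l, ev0 (z l) p ≠ 0 := by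
  classical
  obtain ⟨n, q, hq⟩ := LaurentPolynomial.exists_T_pow p
  have hq0 : q ≠ 0 := by
    intro h0
    rw [h0, map_zero] at hq
    exact hp (((LaurentPolynomial.isUnit_T (R := ℂ) n).mul_left_eq_zero).1 hq.symm)
  have hfin : ({x : ℂ | x = 0 ∨ q.IsRoot x}).Finite :=
    (Set.finite_singleton (0 : ℂ)).union (Polynomial.finite_setOfPred_isRoot hq0)
  have hinf := hfin.infinite_compl
  let e := hinf.natEmbedding
  have he : ∀ l : Fin r, ((e l : ℂ) ≠ 0 ∧ ¬ q.IsRoot (e l)) := fun l => not_or.1 (e l).2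
  refine ⟨fun l => Units.mk0 (e l) (he l).1, ?_, fun l h0 => (he l).2 ?_⟩
  · intro a b hab
    have h1 : ((e a : ℂ)) = e b := congrArg Units.val hab
    exact Fin.ext (e.injective (Subtype.ext h1))
  · have := congrArg (ev0 (Units.mk0 (e l) (he l).1)) hq
    rw [map_mul, h0, zero_mul] at this
    simpa [ev0, LaurentPolynomial.eval₂_toLaurent, Polynomial.eval₂_id] using this

/-- a Laurent polynomial without negative exponents is a polynomial. -/
theorem exists_toLaurent (g : LP) (h : ∀ i : ℤ, g.coeff i ≠ 0 → 0 ≤ i) :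
    ∃ p : Polynomial ℂ, Polynomial.toLaurent p = g ∧ ∀ i : ℕ, p.coeff i = g.coeff (i : ℤ) := by
  classical
  have hco : ∀ (p : Polynomial ℂ) (i : ℕ), (Polynomial.toLaurent p).coeff (i : ℤ) = p.coeff i := by
    intro p i
    rw [LaurentPolynomial.coeff_toLaurent]
    exact Finsupp.mapDomain_apply Nat.castEmbedding.injective _ i
  have hneg : ∀ (p : Polynomial ℂ) (i : ℤ), i < 0 → (Polynomial.toLaurent p).coeff i = 0 := by
    intro p i hi
    rw [LaurentPolynomial.coeff_toLaurent]
    refine Finsupp.mapDomain_of_notMem_range _ _ ?_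
    rintro ⟨k, hk⟩
    have : (k : ℤ) = i := hk
    omega
  let p : Polynomial ℂ := Polynomial.ofFinsupp (AddMonoidAlgebra.ofCoeff
    (Finsupp.comapDomain (fun k : ℕ => (k : ℤ)) g.coeff Nat.cast_injective.injOn))
  have hp : ∀ i : ℕ, p.coeff i = g.coeff (i : ℤ) := fun i => rfl
  refine ⟨p, ?_, hp⟩
  refine LaurentPolynomial.ext fun i => ?_
  rcases lt_or_ge i 0 with hi | hi
  · rw [hneg p i hi]
    by_contra h0
    have := h i (Ne.symm h0)
    omega
  · obtain ⟨k, rfl⟩ := Int.eq_ofNat_of_zero_le hi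
    rw [hco, hp]

theorem ev_coeff_low {S : Type*} [CommRing S] (c G : Polynomial S) (j μ : ℕ)
    (hc : ∀ k, j + k < μ → c.coeff k = 0) :
    (Polynomial.X ^ j * (c * G)).coeff μ = (if j ≤ μ then c.coeff (μ - j) else 0) * G.coeff 0 := by
  rw [Polynomial.coeff_X_pow_mul']
  split_ifs with h
  · have h1 : (Polynomial.X : Polynomial S) ^ (μ - j) ∣ c := by
      rw [Polynomial.X_pow_dvd_iff]
      intro d hd
      exact hc d (by omega)
    obtain ⟨q, rfl⟩ := h1
    have h2 : ∀ u : Polynomial S, (Polynomial.X ^ (μ - j) * u).coeff (μ - j) = u.coeff 0 := by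
      intro u
      have := Polynomial.coeff_X_pow_mul u (μ - j) 0
      rwa [zero_add] at this
    rw [mul_assoc, h2, h2, Polynomial.mul_coeff_zero]
  · rw [zero_mul]

/-- lowest term in `t`. -/
theorem coeff_lowest {K S : Type*} [CommRing K] [CommRing S] (ι : K →+* S) (x y z η w : S)
    (E : Polynomial S) (J μ : ℕ) (n : ℕ → ℕ) (c : ℕ → ℕ → ℕ → Polynomial K)
    (hc : ∀ j β γ k, j < J → β < 3 → β + γ ≤ n j → j + k < μ → (c j β γ).coeff k = 0) :
    (∑ j ∈ range J, (Polynomial.X * (Polynomial.C w + Polynomial.X * E)) ^ j *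
      form (Polynomial.mapRingHom ι) (Polynomial.C x) (Polynomial.C y + Polynomial.X * Polynomial.C η)
        (Polynomial.C z) (n j) (c j)).coeff μ =
    ∑ j ∈ range J, w ^ j *
      form ι x y z (n j) (fun β γ => if j ≤ μ then (c j β γ).coeff (μ - j) else 0) := by
  rw [Polynomial.finsetSum_coeff]
  refine Finset.sum_congr rfl fun j hj => ?_
  rw [form_def, form_def, Finset.mul_sum, Finset.mul_sum, Polynomial.finsetSum_coeff]
  refine Finset.sum_congr rfl fun β hβ => ?_
  rw [Finset.mul_sum, Finset.mul_sum, Polynomial.finsetSum_coeff]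
  refine Finset.sum_congr rfl fun γ hγ => ?_
  have h1 : ∀ (u v : Polynomial S), (Polynomial.X * u) ^ j *
      (Polynomial.mapRingHom ι (c j β γ) * v) =
      Polynomial.X ^ j * (Polynomial.mapRingHom ι (c j β γ) * (u ^ j * v)) := by
    intro u v
    ring
  rw [h1, ev_coeff_low]
  · simp only [Polynomial.coe_mapRingHom, Polynomial.coeff_map, Polynomial.coeff_zero_eq_eval_zero,
      Polynomial.eval_mul, Polynomial.eval_pow, Polynomial.eval_add, Polynomial.eval_C,
      Polynomial.eval_X, zero_mul, add_zero]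
    split_ifs with h
    · ring
    · simp
  · intro k hk
    rw [Polynomial.coe_mapRingHom, Polynomial.coeff_map,
      hc j β γ k (Finset.mem_range.1 hj) (Finset.mem_range.1 hβ)
        (by have := Finset.mem_range.1 hγ; omega) hk, map_zero]

/-- first order expansion of the cubic in `y`. -/
theorem cubic_taylor {K S : Type*} [CommRing K] [CommRing S] (ι : K →+* S) (x y z : S)
    (κ : ℕ → ℕ → K) (t : S) :
    ∃ e : S, (y + t) ^ 3 + form ι x (y + t) z 3 κ = (y ^ 3 + form ι x y z 3 κ) +
      t * form ι x y z 2 (fun β γ => if β = 2 then 3 else ((β + 1 : ℕ) : K) * κ (β + 1) γ) +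
      t ^ 2 * e := by
  refine ⟨3 * y + t + ι (κ 2 0) * x + ι (κ 2 1) * z, ?_⟩
  simp only [form_def, Finset.sum_range_succ, Finset.sum_range_zero]
  simp [map_ofNat]
  ring

end Crest.Agent.R259
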