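import Crest.Agent.R259.Defs

/-! Row 259: expansion in powers of the cubic, Taylor formula, products. -/

set_option autoImplicit false

noncomputable section

namespace Crest.Agent.R259

open Finset Crest.AlgGeometry

/-- the affine cubic `y^3 + ∑ κ β γ y^β z^γ`. -/
def cub {R : Type*} [CommRing R] (κ : ℕ → ℕ → R) : MvPolynomial (Fin 2) R :=
  MvPolynomial.X 0 ^ 3 + form MvPolynomial.C 1 (MvPolynomial.X 0) (MvPolynomial.X 1) 3 κ

/-- span of the products `cub^j y^β z^γ`, `β < 3`, of degree at most `D` -/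
def xeW {R : Type*} [CommRing R] (κ : ℕ → ℕ → R) (D : ℕ) :
    Submodule R (MvPolynomial (Fin 2) R) :=
  Submodule.span R {g | ∃ j β γ : ℕ, β < 3 ∧ 3 * j + β + γ ≤ D ∧
    g = cub κ ^ j * (MvPolynomial.X 0 ^ β * MvPolynomial.X 1 ^ γ)}

theorem xe_cub_mul {R : Type*} [CommRing R] (κ : ℕ → ℕ → R) (D : ℕ) (g : MvPolynomial (Fin 2) R)
    (hg : g ∈ xeW κ D) : cub κ * g ∈ xeW κ (D + 3) := by
  induction hg using Submodule.span_induction with
  | mem g hg =>
    obtain ⟨j, β, γ, hβ, hD, rfl⟩ := hg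
    exact Submodule.subset_span ⟨j + 1, β, γ, hβ, by omega, by ring⟩
  | zero => simp
  | add a b _ _ ha hb => rw [mul_add]; exact Submodule.add_mem _ ha hb
  | smul r a _ ha => rw [mul_smul_comm]; exact Submodule.smul_mem _ _ ha

theorem xe_mono_mem {R : Type*} [CommRing R] (κ : ℕ → ℕ → R) (β : ℕ) : ∀ γ D : ℕ, β + γ ≤ D →
    (MvPolynomial.X 0 ^ β * MvPolynomial.X 1 ^ γ : MvPolynomial (Fin 2) R) ∈ xeW κ D := by
  induction β using Nat.strong_induction_on with
  | _ β ih =>
    intro γ D hD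
    by_cases hβ : β < 3
    · exact Submodule.subset_span ⟨0, β, γ, hβ, by omega, by simp⟩
    · obtain ⟨b, rfl⟩ : ∃ b, β = b + 3 := ⟨β - 3, by omega⟩
      obtain ⟨E, rfl⟩ : ∃ E, D = E + 3 := ⟨D - 3, by omega⟩
      have h1 : (MvPolynomial.X 0 ^ (b + 3) * MvPolynomial.X 1 ^ γ : MvPolynomial (Fin 2) R) =
          cub κ * (MvPolynomial.X 0 ^ b * MvPolynomial.X 1 ^ γ) -
            ∑ β' ∈ range 3, ∑ γ' ∈ range (3 + 1 - β'), κ β' γ' •
              (MvPolynomial.X 0 ^ (b + β') * MvPolynomial.X 1 ^ (γ + γ')) := by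
        rw [cub, form_def, add_mul, Finset.sum_mul, eq_sub_iff_add_eq]
        congr 1
        · ring
        · refine Finset.sum_congr rfl fun β' _ => ?_
          rw [Finset.sum_mul]
          refine Finset.sum_congr rfl fun γ' _ => ?_
          rw [MvPolynomial.smul_eq_C_mul]
          ring
      rw [h1]
      refine Submodule.sub_mem _ (xe_cub_mul κ E _ (ih b (by omega) γ E (by omega))) ?_
      refine Submodule.sum_mem _ fun β' hβ' => Submodule.sum_mem _ fun γ' hγ' => ?_
      have h2 := Finset.mem_range.1 hβ'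
      have h3 := Finset.mem_range.1 hγ'
      exact Submodule.smul_mem _ _ (ih _ (by omega) _ _ (by omega))

theorem xe_of_mem {R : Type*} [CommRing R] (κ : ℕ → ℕ → R) (D : ℕ)
    (f : MvPolynomial (Fin 2) R) (hf : f ∈ xeW κ D) :
    ∃ c : ℕ → ℕ → ℕ → R, f = ∑ j ∈ range (D / 3 + 1), cub κ ^ j *
      form MvPolynomial.C 1 (MvPolynomial.X 0) (MvPolynomial.X 1) (D - 3 * j) (c j) := by
  induction hf using Submodule.span_induction with
  | mem g hg =>
    obtain ⟨j, β, γ, hβ, hD, rfl⟩ := hg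
    refine ⟨fun j' β' γ' => if j' = j ∧ β' = β ∧ γ' = γ then 1 else 0, ?_⟩
    rw [Finset.sum_eq_single j]
    · congr 1
      rw [form_def, Finset.sum_eq_single β]
      · rw [Finset.sum_eq_single γ]
        · simp
        · intro γ' _ h; simp [h]
        · intro h; exact absurd (Finset.mem_range.2 (by omega)) h
      · intro β' _ h; simp [h]
      · intro h; exact absurd (Finset.mem_range.2 hβ) h
    · intro j' _ h; simp [form_def, h]
    · intro h; exact absurd (Finset.mem_range.2 (by omega)) h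
  | zero => exact ⟨fun _ _ _ => 0, by simp [form_def]⟩
  | add a b _ _ ha hb =>
    obtain ⟨c, rfl⟩ := ha
    obtain ⟨d, rfl⟩ := hb
    refine ⟨fun j β γ => c j β γ + d j β γ, ?_⟩
    simp only [form_def, map_add, add_mul, mul_add, Finset.sum_add_distrib]
  | smul r a _ ha =>
    obtain ⟨c, rfl⟩ := ha
    refine ⟨fun j β γ => r * c j β γ, ?_⟩
    simp only [form_def, map_mul, MvPolynomial.smul_eq_C_mul, Finset.mul_sum]
    refine Finset.sum_congr rfl fun _ _ => Finset.sum_congr rfl fun _ _ =>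
      Finset.sum_congr rfl fun _ _ => ?_
    ring

/-- every polynomial of total degree `≤ D` is `∑_j cub^j h_j`, `deg_y h_j ≤ 2`, `deg h_j ≤ D - 3j`.
(The set of such `f` is a submodule; monomials `y^β z^γ`: induction on `D` and on `β`.) -/
theorem exists_expansion {R : Type*} [CommRing R] (κ : ℕ → ℕ → R) (D : ℕ)
    (f : MvPolynomial (Fin 2) R) (hf : f.totalDegree ≤ D) :
    ∃ c : ℕ → ℕ → ℕ → R, f = ∑ j ∈ range (D / 3 + 1), cub κ ^ j *
      form MvPolynomial.C 1 (MvPolynomial.X 0) (MvPolynomial.X 1) (D - 3 * j) (c j) := by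
  refine xe_of_mem κ D f ?_
  rw [f.as_sum]
  refine Submodule.sum_mem _ fun d hd => ?_
  have h1 : d 0 + d 1 ≤ D := by
    have h2 := (MvPolynomial.le_totalDegree hd).trans hf
    rwa [Finsupp.sum_fintype _ _ (fun _ => rfl), Fin.sum_univ_two] at h2
  have h3 : MvPolynomial.monomial d (MvPolynomial.coeff d f) = MvPolynomial.coeff d f •
      (MvPolynomial.X 0 ^ d 0 * MvPolynomial.X 1 ^ d 1 : MvPolynomial (Fin 2) R) := by
    rw [MvPolynomial.monomial_eq, Finsupp.prod_fintype _ _ (fun _ => pow_zero _), Fin.prod_univ_two,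
      MvPolynomial.smul_eq_C_mul]
  rw [h3]
  exact Submodule.smul_mem _ _ (xe_mono_mem κ _ _ _ h1)

theorem vanishes_iff_coeff {R σ : Type*} [CommRing R] (f : MvPolynomial σ R) (a : σ → R) (m : ℕ) :
    VanishesToOrder f a m ↔ ∀ α : σ →₀ ℕ, α.degree < m →
      MvPolynomial.coeff α
        (MvPolynomial.aeval (fun j => MvPolynomial.X j + MvPolynomial.C (a j)) f) = 0 := by
  constructor
  · intro h α hα
    have := congrArg (MvPolynomial.coeff α) (h _ hα)
    rwa [MvPolynomial.coeff_homogeneousComponent, if_pos rfl] at this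
  · intro h k hk
    ext α
    rw [MvPolynomial.coeff_homogeneousComponent]
    split_ifs with hα
    · exact h α (hα ▸ hk)
    · rfl

theorem vanishes_iff_mem {R σ : Type*} [CommRing R] (f : MvPolynomial σ R) (a : σ → R) (m : ℕ) :
    VanishesToOrder f a m ↔
      MvPolynomial.aeval (fun j => MvPolynomial.X j + MvPolynomial.C (a j)) f ∈
        MvPolynomial.idealOfVars σ R ^ m := by
  rw [vanishes_iff_coeff, MvPolynomial.mem_pow_idealOfVars_iff']

theorem vanishes_mul {R σ : Type*} [CommRing R] {f g : MvPolynomial σ R} {a : σ → R} {m n : ℕ}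
    (hf : VanishesToOrder f a m) (hg : VanishesToOrder g a n) :
    VanishesToOrder (f * g) a (m + n) := by
  rw [vanishes_iff_mem] at hf hg ⊢
  rw [map_mul, pow_add]
  exact Ideal.mul_mem_mul hf hg

theorem vanishes_prod {R σ ι : Type*} [CommRing R] (s : Finset ι) (f : ι → MvPolynomial σ R)
    (a : σ → R) (m : ι → ℕ) (h : ∀ i ∈ s, VanishesToOrder (f i) a (m i)) :
    VanishesToOrder (∏ i ∈ s, f i) a (∑ i ∈ s, m i) := by
  classical
  induction s using Finset.induction_on with
  | empty => exact fun k hk => absurd hk (by simp)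
  | insert i s hi ih =>
    rw [prod_insert hi, sum_insert hi]
    exact vanishes_mul (h i (mem_insert_self _ _)) (ih fun j hj => h j (mem_insert_of_mem hj))

/-- Taylor formula. -/
theorem pow_dvd_eval₂ {R W σ : Type*} [CommRing R] [CommRing W] (ι : R →+* W)
    {f : MvPolynomial σ R} {P : σ → R} {m : ℕ} (hf : VanishesToOrder f P m) (ε : W) (a : σ → W)
    (ha : ∀ j, ε ∣ a j - ι (P j)) : ε ^ m ∣ MvPolynomial.eval₂ ι a f := by
  rw [vanishes_iff_mem] at hf
  have h1 := Ideal.mem_map_of_mem (MvPolynomial.eval₂Hom ι fun j => a j - ι (P j)) hf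
  have h2 : (MvPolynomial.idealOfVars σ R).map (MvPolynomial.eval₂Hom ι fun j => a j - ι (P j)) ≤
      Ideal.span {ε} := by
    rw [Ideal.map_le_iff_le_comap, Ideal.span_le]
    rintro _ ⟨j, rfl⟩
    simpa [Ideal.mem_span_singleton] using ha j
  rw [Ideal.map_pow] at h1
  have h3 := Ideal.pow_right_mono h2 m h1
  rw [Ideal.span_singleton_pow, Ideal.mem_span_singleton] at h3
  have e : (MvPolynomial.eval₂Hom ι fun j => a j - ι (P j)).comp
      (MvPolynomial.aeval (fun j => MvPolynomial.X j + MvPolynomial.C (P j)) :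
        MvPolynomial σ R →ₐ[R] MvPolynomial σ R).toRingHom = MvPolynomial.eval₂Hom ι a := by
    ext <;> simp
  have e' := RingHom.congr_fun e f
  rw [MvPolynomial.coe_eval₂Hom] at e'
  rw [← e']
  exact h3

end Crest.Agent.R259
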