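import Crest.Agent.R259.Defs

/-! Row 259: the line reduction on the triangle. -/

set_option autoImplicit false

noncomputable section

namespace Crest.Agent.R259

open Finset Polynomial

/-- a nonzero polynomial with `r` distinct nonzero roots of multiplicity `≥ e` has two exponents at
distance at least `r e`. -/
theorem span_of_roots {r : ℕ} (z : Fin r → ℂ) (hz : Function.Injective z) (hz0 : ∀ l, z l ≠ 0)
    (G : ℂ[X]) (hG : G ≠ 0) (e : ℕ) (h : ∀ l, (X - C (z l)) ^ e ∣ G) :
    G.natTrailingDegree + r * e ≤ G.natDegree := by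
  classical
  have hcop : Pairwise (Function.onFun IsCoprime fun l : Fin r => (X - C (z l)) ^ e) := by
    intro a b hab
    exact (Polynomial.pairwise_coprime_X_sub_C hz hab).pow
  have h1 : (∏ l, (X - C (z l)) ^ e) ∣ G := Fintype.prod_dvd_of_coprime hcop h
  have h2 : (X : ℂ[X]) ^ G.natTrailingDegree ∣ G := by
    rw [Polynomial.X_pow_dvd_iff]
    intro d hd
    exact Polynomial.coeff_eq_zero_of_lt_natTrailingDegree hd
  have h3 : IsCoprime ((X : ℂ[X]) ^ G.natTrailingDegree) (∏ l, (X - C (z l)) ^ e) := by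
    refine IsCoprime.pow_left (IsCoprime.prod_right fun l _ => IsCoprime.pow_right ?_)
    have : IsCoprime (X - C (0 : ℂ)) (X - C (z l)) :=
      Polynomial.isCoprime_X_sub_C_of_isUnit_sub (by
        rw [zero_sub]
        exact (IsUnit.mk0 _ (hz0 l)).neg)
    simpa using this
  have h4 := Polynomial.natDegree_le_of_dvd (h3.mul_dvd h2 h1) hG
  have hm : (∏ l, (X - C (z l)) ^ e : ℂ[X]).Monic :=
    Polynomial.monic_prod_of_monic _ _ fun l _ => (Polynomial.monic_X_sub_C _).pow _
  rw [(Polynomial.monic_X_pow _).natDegree_mul hm, Polynomial.natDegree_X_pow,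
    Polynomial.natDegree_prod_of_monic _ _ fun l _ => (Polynomial.monic_X_sub_C _).pow _] at h4
  simpa [Polynomial.natDegree_pow] using h4

/-- if `∑ a j (1+u)^j` is divisible by `u^l` and nonzero, its support has length at least `l`. -/
theorem slice_length (J l : ℕ) (a : ℕ → ℂ)
    (h : ∀ e, e < l → ∑ j ∈ range J, (j.choose e : ℂ) * a j = 0)
    (hne : ∃ j, j < J ∧ a j ≠ 0) :
    ∃ j₁ j₂, j₂ < J ∧ j₁ + l ≤ j₂ ∧ a j₁ ≠ 0 ∧ a j₂ ≠ 0 := by
  classical
  set G : ℂ[X] := ∑ j ∈ range J, C (a j) * X ^ j with hG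
  have hco : ∀ j, G.coeff j = if j < J then a j else 0 := by
    intro j
    simp [hG, Polynomial.finsetSum_coeff, Polynomial.coeff_C_mul, Polynomial.coeff_X_pow]
  have hG0 : G ≠ 0 := by
    obtain ⟨j, hj, hj0⟩ := hne
    intro h0
    have := hco j
    rw [h0, if_pos hj] at this
    exact hj0 (by simpa using this.symm)
  have hdvd : (X - C (1 : ℂ)) ^ l ∣ G := by
    have h1 : (X : ℂ[X]) ^ l ∣ Polynomial.taylor 1 G := by
      rw [Polynomial.X_pow_dvd_iff]
      intro e he
      rw [← h e he, hG, map_sum, Polynomial.finsetSum_coeff]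
      refine Finset.sum_congr rfl fun j _ => ?_
      rw [Polynomial.taylor_mul, Polynomial.taylor_C, Polynomial.taylor_pow, Polynomial.taylor_X,
        Polynomial.coeff_C_mul, map_one, Polynomial.coeff_X_add_one_pow, mul_comm]
    obtain ⟨q, hq⟩ := h1
    refine ⟨Polynomial.taylor (-1) q, ?_⟩
    have := congrArg (Polynomial.taylor (-1 : ℂ)) hq
    rw [Polynomial.taylor_taylor, Polynomial.taylor_mul, Polynomial.taylor_pow,
      Polynomial.taylor_X] at this
    simpa [sub_eq_add_neg] using this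
  have hs := span_of_roots (r := 1) (fun _ => (1 : ℂ)) (fun a b _ => Subsingleton.elim a b)
    (fun _ => one_ne_zero) G hG0 l (fun _ => hdvd)
  have hl : G.coeff G.natDegree ≠ 0 := Polynomial.leadingCoeff_ne_zero.2 hG0
  have ht : G.coeff G.natTrailingDegree ≠ 0 := Polynomial.trailingCoeff_nonzero_iff_nonzero.2 hG0
  rw [hco] at hl ht
  refine ⟨G.natTrailingDegree, G.natDegree, ?_, by omega, ?_, ?_⟩
  · by_contra hh
    exact hl (if_neg hh)
  · intro hh
    exact ht (by rw [hh, ite_self])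
  · intro hh
    exact hl (by rw [hh, ite_self])

/-- The triangle lemma.  `s = √r > 3`.  Let `G e = ∑_j (j choose e) p j` and let `l` be minimal with
`G l ≠ 0` (if all `G e` vanish then all `p j` vanish, `slice_length` with `l` large).  By
`slice_length` every exponent `i` of `G l` has `l s (s-3) ≤ i < s (D - 3 l)`; the length of this window
is `s D - l r ≤ r (m - l)`; contradiction with `span_of_roots` (or emptiness if `l ≥ m`). -/
theorem triangle (r : ℕ) (hr : 10 ≤ r) (D m : ℕ) (hD : 1 ≤ D)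
    (hm : (D : ℝ) ≤ Real.sqrt r * m) (z : Fin r → ℂ) (hz : Function.Injective z)
    (hz0 : ∀ l, z l ≠ 0) (p : ℕ → ℂ[X])
    (hsupp : ∀ j i : ℕ, 3 * j ≤ D → (p j).coeff i ≠ 0 →
      (Real.sqrt r - 3) * ((D : ℝ) - 3 * j) ≤ i ∧
        ((i : ℝ) < Real.sqrt r * ((D : ℝ) - 3 * j) ∨ (i = 0 ∧ D = 3 * j)))
    (hvan : ∀ l e, e < m →
      (X - C (z l)) ^ (m - e) ∣ ∑ j ∈ range (D / 3 + 1), C (j.choose e : ℂ) * p j) :
    ∀ j, 3 * j ≤ D → p j = 0 := by
  classical
  set s : ℝ := Real.sqrt r with hs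
  have hss : s * s = r := Real.mul_self_sqrt (Nat.cast_nonneg r)
  have hr' : (10 : ℝ) ≤ r := by exact_mod_cast hr
  have hs3 : 3 < s := by
    rw [hs]
    exact Real.lt_sqrt_of_sq_lt (by linarith)
  have hD' : (1 : ℝ) ≤ D := by exact_mod_cast hD
  set G : ℕ → ℂ[X] := fun e => ∑ j ∈ range (D / 3 + 1), C (j.choose e : ℂ) * p j with hG
  have hGco : ∀ e i, (G e).coeff i = ∑ j ∈ range (D / 3 + 1), (j.choose e : ℂ) * (p j).coeff i := by
    intro e i
    simp only [hG, Polynomial.finsetSum_coeff, Polynomial.coeff_C_mul]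
  have hall : ∀ e, G e = 0 := by
    by_contra hne
    push Not at hne
    set l := Nat.find hne with hl
    have hl0 : G l ≠ 0 := Nat.find_spec hne
    have hmin : ∀ e, e < l → G e = 0 := fun e he => by
      by_contra h0
      exact Nat.find_min hne he h0
    have hwin : ∀ i : ℕ, (G l).coeff i ≠ 0 →
        (l : ℝ) * (s * (s - 3)) ≤ i ∧ (i : ℝ) < s * (D - 3 * l) := by
      intro i hi
      have hex : ∃ j, j < D / 3 + 1 ∧ (p j).coeff i ≠ 0 := by
        by_contra hh
        push Not at hh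
        apply hi
        rw [hGco]
        exact Finset.sum_eq_zero fun j hj => by rw [hh j (Finset.mem_range.1 hj), mul_zero]
      obtain ⟨j₁, j₂, h2, h12, ha1, ha2⟩ := slice_length (D / 3 + 1) l (fun j => (p j).coeff i)
        (fun e he => by rw [← hGco, hmin e he, Polynomial.coeff_zero]) hex
      have hb1 := (hsupp j₁ i (by omega) ha1).1
      have hb2 := (hsupp j₂ i (by omega) ha2).2
      have h12' : (j₁ : ℝ) + l ≤ j₂ := by exact_mod_cast h12
      have hj1 : (0 : ℝ) ≤ j₁ := Nat.cast_nonneg _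
      have hl1 : (0 : ℝ) ≤ l := Nat.cast_nonneg _
      have hlow : (s - 3) * ((D : ℝ) - 3 * j₂ + 3 * l) ≤ i :=
        le_trans (mul_le_mul_of_nonneg_left (by linarith) (by linarith)) hb1
      rcases hb2 with hb2 | ⟨hi0, hD2⟩
      · constructor
        · have h1 : (s - 3) * (i : ℝ) ≤ (s - 3) * (s * ((D : ℝ) - 3 * j₂)) :=
            mul_le_mul_of_nonneg_left hb2.le (by linarith)
          have h3 : s * ((s - 3) * ((D : ℝ) - 3 * j₂ + 3 * l)) ≤ s * i :=
            mul_le_mul_of_nonneg_left hlow (by linarith)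
          nlinarith
        · exact lt_of_lt_of_le hb2 (mul_le_mul_of_nonneg_left (by linarith) (by linarith))
      · have hD3 : (D : ℝ) = 3 * j₂ := by exact_mod_cast hD2
        have hi1 : (i : ℝ) = 0 := by exact_mod_cast hi0
        rw [hi1, hD3, sub_self, zero_add] at hlow
        have hl2 : (l : ℝ) = 0 := by nlinarith
        rw [hl2, hi1]
        constructor
        · simp
        · nlinarith
    have h1 := (hwin _ (Polynomial.trailingCoeff_nonzero_iff_nonzero.2 hl0)).1
    have h2 := (hwin _ (Polynomial.leadingCoeff_ne_zero.2 hl0)).2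
    have h3 : s * D ≤ r * m := by
      have := mul_le_mul_of_nonneg_left hm (by linarith : 0 ≤ s)
      rwa [← mul_assoc, hss] at this
    have h4 : ((G l).natDegree : ℝ) < (G l).natTrailingDegree + r * (m - l) := by
      have : (l : ℝ) * (s * (s - 3)) = l * r - 3 * (s * l) := by rw [← hss]; ring
      nlinarith
    by_cases hlm : l < m
    · have h5 := span_of_roots z hz hz0 (G l) hl0 (m - l) (fun l' => hvan l' l hlm)
      have h6 : ((G l).natTrailingDegree : ℝ) + r * ((m - l : ℕ) : ℝ) ≤ (G l).natDegree := by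
        exact_mod_cast h5
      rw [Nat.cast_sub hlm.le] at h6
      linarith
    · have h5 : ((G l).natTrailingDegree : ℝ) ≤ (G l).natDegree := by
        exact_mod_cast Polynomial.natTrailingDegree_le_natDegree _
      have h6 : (m : ℝ) ≤ l := by exact_mod_cast not_lt.1 hlm
      nlinarith
  intro j hj
  ext i
  by_contra hi
  obtain ⟨j₁, j₂, h2, h12, -, -⟩ := slice_length (D / 3 + 1) (D / 3 + 1) (fun j => (p j).coeff i)
    (fun e _ => by rw [← hGco, hall e, Polynomial.coeff_zero]) ⟨j, by omega, hi⟩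
  omega

theorem tri2_evz (z0 : ℂˣ) (p : ℂ[X]) : evz z0 (Polynomial.toLaurent p) =
    PowerSeries.map Polynomial.C ((Polynomial.taylor (z0 : ℂ) p : ℂ[X]) : PowerSeries ℂ) := by
  rw [evz, LaurentPolynomial.eval₂_toLaurent]
  induction p using Polynomial.induction_on' with
  | add p q hp hq => rw [Polynomial.eval₂_add, hp, hq, map_add, Polynomial.coe_add, map_add]
  | monomial n a =>
    rw [Polynomial.eval₂_monomial, ← Polynomial.C_mul_X_pow_eq_monomial, Polynomial.taylor_mul,
      Polynomial.taylor_C, Polynomial.taylor_pow, Polynomial.taylor_X, Polynomial.coe_mul,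
      Polynomial.coe_pow, Polynomial.coe_add, Polynomial.coe_C, Polynomial.coe_C, Polynomial.coe_X,
      map_mul, map_pow, map_add, PowerSeries.map_C, PowerSeries.map_C, PowerSeries.map_X,
      IsUnit.unit_spec, add_comm]
    rfl

theorem tri2_coeff (j e k : ℕ) (P : PowerSeries ℂ) :
    (PowerSeries.coeff (e + k) ((1 + uu) ^ j * PowerSeries.map Polynomial.C P)).coeff e =
      (j.choose e : ℂ) * PowerSeries.coeff k P := by
  rw [add_comm 1 uu, add_pow, Finset.sum_mul, map_sum, Polynomial.finsetSum_coeff]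
  have h : ∀ t : ℕ, (PowerSeries.coeff (e + k)
      (uu ^ t * 1 ^ (j - t) * (j.choose t : TT) * PowerSeries.map Polynomial.C P)).coeff e =
      if t = e then (j.choose e : ℂ) * PowerSeries.coeff k P else 0 := by
    intro t
    have e1 : uu ^ t * 1 ^ (j - t) * (j.choose t : TT) * PowerSeries.map Polynomial.C P =
        PowerSeries.X ^ t * (PowerSeries.C (Polynomial.X ^ t * Polynomial.C (j.choose t : ℂ)) *
          PowerSeries.map Polynomial.C P) := by
      rw [uu, mul_pow, one_pow, map_mul, map_pow, map_natCast, map_natCast]; ring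
    rw [e1, PowerSeries.coeff_X_pow_mul']
    split_ifs with h1 h2 h2
    · subst h2
      rw [PowerSeries.coeff_C_mul, PowerSeries.coeff_map, mul_assoc, ← map_mul, mul_comm,
        Polynomial.coeff_C_mul, Polynomial.coeff_X_pow, if_pos rfl, mul_one,
        Nat.add_sub_cancel_left]
    · rw [PowerSeries.coeff_C_mul, PowerSeries.coeff_map, mul_assoc, ← map_mul, mul_comm,
        Polynomial.coeff_C_mul, Polynomial.coeff_X_pow, if_neg (Ne.symm h2), mul_zero]
    · omega
    · rfl
  simp only [h]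
  rw [Finset.sum_ite_eq']
  split_ifs with h1
  · rfl
  · rw [Nat.choose_eq_zero_of_lt (by simpa using h1)]; simp

/-- reading off the coefficient of `υ^e` in `∑ (1 + ε υ)^j p_j(z0 + ε)`. -/
theorem decode (z0 : ℂˣ) (J m : ℕ) (p : ℕ → ℂ[X])
    (h : eps ^ m ∣ ∑ j ∈ range J, (1 + uu) ^ j * evz z0 (Polynomial.toLaurent (p j))) :
    ∀ e, e < m → (X - C (z0 : ℂ)) ^ (m - e) ∣ ∑ j ∈ range J, C (j.choose e : ℂ) * p j := by
  intro e he
  rw [eps, PowerSeries.X_pow_dvd_iff] at h
  have h1 : (X : ℂ[X]) ^ (m - e) ∣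
      Polynomial.taylor (z0 : ℂ) (∑ j ∈ range J, C (j.choose e : ℂ) * p j) := by
    rw [Polynomial.X_pow_dvd_iff]
    intro k hk
    have h2 := congrArg (fun q : ℂ[X] => q.coeff e) (h (e + k) (by omega))
    simp only [map_sum, Polynomial.finsetSum_coeff, tri2_evz, tri2_coeff, Polynomial.coeff_coe,
      Polynomial.coeff_zero] at h2
    rw [← h2, map_sum, Polynomial.finsetSum_coeff]
    refine Finset.sum_congr rfl fun j _ => ?_
    rw [Polynomial.taylor_mul, Polynomial.taylor_C, Polynomial.coeff_C_mul]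
  obtain ⟨q, hq⟩ := h1
  refine ⟨Polynomial.taylor (-(z0 : ℂ)) q, ?_⟩
  have := congrArg (Polynomial.taylor (-(z0 : ℂ))) hq
  rw [Polynomial.taylor_taylor, Polynomial.taylor_mul, Polynomial.taylor_pow,
    Polynomial.taylor_X, neg_add_cancel, Polynomial.taylor_zero, map_neg, ← sub_eq_add_neg] at this
  exact this

/-- a rational slope just below `√r - 3`. -/
theorem exists_slope (r : ℕ) (D : ℕ) :
    ∃ (N0 : ℕ) (s : ℤ), 0 < N0 ∧ ∀ (n : ℕ) (i : ℤ), n ≤ D →
      3 * s * n ≤ 6 * (N0 : ℤ) * i → 6 * (N0 : ℤ) * i ≤ (3 * s + 3 * (6 * (N0 : ℤ))) * n →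
      (Real.sqrt r - 3) * n ≤ i ∧ ((i : ℝ) < Real.sqrt r * n ∨ (i = 0 ∧ n = 0)) := by
  set y0 : ℝ := Real.sqrt r - 3 with hy0
  have hev : ∀ᶠ y in nhds y0, ∀ n ∈ Finset.range (D + 1), (⌈y0 * n⌉ : ℝ) - 1 < y * n := by
    rw [Filter.eventually_all_finset]
    intro n _
    have hc : Continuous fun y : ℝ => y * n := by fun_prop
    exact hc.continuousAt.eventually (lt_mem_nhds (by linarith [Int.ceil_lt_add_one (y0 * n)]))
  obtain ⟨ε, hε, hball⟩ := Metric.eventually_nhds_iff.1 hev
  obtain ⟨q, hq1, hq2⟩ := exists_rat_btwn (show y0 - ε < y0 by linarith)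
  have hq := hball (y := (q : ℝ)) (by rw [Real.dist_eq, abs_lt]; constructor <;> linarith)
  have hden : (0 : ℝ) < q.den := by exact_mod_cast q.den_pos
  have hnum : (q.num : ℝ) = q * q.den := by
    rw [Rat.cast_def]; field_simp
  refine ⟨q.den, 2 * q.num, q.den_pos, fun n i hn h1 h2 => ?_⟩
  have h1' : (3 : ℝ) * (2 * q.num) * n ≤ 6 * q.den * i := by exact_mod_cast h1
  have h2' : (6 : ℝ) * q.den * i ≤ (3 * (2 * q.num) + 3 * (6 * q.den)) * n := by exact_mod_cast h2
  rw [hnum] at h1' h2'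
  have h3 : (q : ℝ) * n ≤ i := le_of_mul_le_mul_left (by linarith) (show (0 : ℝ) < 6 * q.den by linarith)
  have h4 : (i : ℝ) ≤ (q + 3) * n :=
    le_of_mul_le_mul_left (by linarith) (show (0 : ℝ) < 6 * q.den by linarith)
  constructor
  · have h5 := hq n (Finset.mem_range.2 (by omega))
    have h6 : ⌈y0 * n⌉ - 1 < i := by
      have : ((⌈y0 * n⌉ - 1 : ℤ) : ℝ) < i := by push_cast; linarith
      exact_mod_cast this
    exact Int.ceil_le.1 (by omega)
  · rcases Nat.eq_zero_or_pos n with rfl | hpos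
    · right
      simp only [Nat.cast_zero, mul_zero] at h3 h4
      exact ⟨by exact_mod_cast le_antisymm h4 h3, rfl⟩
    · left
      have : (0 : ℝ) < n := by exact_mod_cast hpos
      have h7 : Real.sqrt r = y0 + 3 := by rw [hy0]; ring
      rw [h7]
      nlinarith

end Crest.Agent.R259
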