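import Crest.Agent.R259.Theta
import Crest.Agent.R259.Tri
import Crest.Agent.R259.Expand
import Crest.Agent.R259.Ev

/-! Row 259: degeneration to the normal cone of the cubic. -/

set_option autoImplicit false

noncomputable section

namespace Crest.Agent.R259

open Finset Crest.AlgGeometry

theorem cn_inv_congr {S : Type*} [CommRing S] {ε u u' v v' : S} (h : ε ∣ u - u') (hu : u * v = 1)
    (hu' : u' * v' = 1) : ε ∣ v - v' := by
  have : v - v' = -(v * v') * (u - u') := by
    linear_combination (-v') * hu * (-1) + v * hu' * (-1)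
  rw [this]
  exact h.mul_left _

theorem cn_mul_congr {S : Type*} [CommRing S] {ε a a' b b' : S} (h : ε ∣ a - a')
    (h' : ε ∣ b - b') : ε ∣ a * b - a' * b' := by
  have : a * b - a' * b' = (a - a') * b + a' * (b - b') := by ring
  rw [this]
  exact (h.mul_right _).add (h'.mul_left _)

theorem cn_form_C {K R : Type*} [CommRing K] [CommRing R] (φ : Polynomial K →+* R) (x y z : R)
    (n : ℕ) (κ : ℕ → ℕ → K) :
    form φ x y z n (fun β γ => Polynomial.C (κ β γ)) = form (φ.comp Polynomial.C) x y z n κ := rfl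

theorem cn_form_zero {K R : Type*} [CommRing K] [CommRing R] (φ : K →+* R) (x y z : R)
    (n : ℕ) (c : ℕ → ℕ → K) (h : ∀ β γ, β < 3 → β + γ ≤ n → c β γ = 0) :
    form φ x y z n c = 0 := by
  rw [form_def]
  refine Finset.sum_eq_zero fun β hβ => Finset.sum_eq_zero fun γ hγ => ?_
  rw [h β γ (Finset.mem_range.1 hβ) (by have := Finset.mem_range.1 hγ; omega), map_zero, zero_mul]

theorem Theta.X_ne_zero {N b : ℤ} (T : Theta N b) : T.X ≠ 0 := by
  intro h
  have := T.indep 1 (fun β γ => if β = 0 ∧ γ = 0 then 1 else 0) (by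
    rw [form_def]
    simp [Finset.sum_range_succ, h]) 0 0 (by omega) (by omega)
  simp at this

/-- the substitution at one point, abstract form -/
theorem cn_point {K A S : Type*} [Field K] [CommRing A] [CommRing S] (iK : K →+* A) (ι : K →+* S)
    (e : A →+* S) (e0 : A →+* K) (hcomp : e.comp iK = ι) (ε w : S) (hw1 : ε ∣ w - 1)
    (hcong : ∀ F : A, ε ∣ e F - ι (e0 F)) (X Y Z : A) (κ : ℕ → ℕ → K)
    (hκ : Y ^ 3 + form iK X Y Z 3 κ = 0) (ψ : A)
    (hψ : ψ = form iK X Y Z 2
      (fun β γ => if β = 2 then 3 else ((β + 1 : ℕ) : K) * κ (β + 1) γ))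
    (hXu : IsUnit (e X)) (hψu : IsUnit (e ψ)) (hX0 : e0 X ≠ 0) (hp0 : e0 ψ ≠ 0)
    (D m μ : ℕ) (c : ℕ → ℕ → ℕ → Polynomial K)
    (hc : ∀ j β γ k, j < D / 3 + 1 → β < 3 → β + γ ≤ D - 3 * j → j + k < μ →
      (c j β γ).coeff k = 0)
    (hv : VanishesToOrder (∑ j ∈ range (D / 3 + 1), cub (fun β γ => Polynomial.C (κ β γ)) ^ j *
      form MvPolynomial.C 1 (MvPolynomial.X 0) (MvPolynomial.X 1) (D - 3 * j) (c j))
      ![(Polynomial.C (e0 Y) + Polynomial.X * Polynomial.C (e0 ψ)⁻¹) *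
          Polynomial.C (e0 X)⁻¹,
        Polynomial.C (e0 Z * (e0 X)⁻¹)] m) :
    ε ^ m ∣ ∑ j ∈ range (D / 3 + 1), w ^ j *
      e (form iK X Y Z (D - 3 * j)
        (fun β γ => if j ≤ μ then (c j β γ).coeff (μ - j) else 0)) := by
  classical
  obtain ⟨xi, hxi⟩ := hXu.exists_right_inv
  obtain ⟨pi, hpi⟩ := hψu.exists_right_inv
  have hxi' : ε ∣ xi - ι (e0 X)⁻¹ :=
    cn_inv_congr (hcong X) hxi (by rw [← map_mul, mul_inv_cancel₀ hX0, map_one])
  have hpi' : ε ∣ pi - ι (e0 ψ)⁻¹ :=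
    cn_inv_congr (hcong ψ) hpi (by rw [← map_mul, mul_inv_cancel₀ hp0, map_one])
  set η : S := w * pi with hη
  have hη' : ε ∣ η - ι (e0 ψ)⁻¹ := by
    have := cn_mul_congr hw1 hpi'
    rwa [one_mul] at this
  let ιW : Polynomial K →+* Polynomial S := Polynomial.mapRingHom ι
  let yW : Polynomial S := Polynomial.C (e Y) + Polynomial.X * Polynomial.C η
  let a : Fin 2 → Polynomial S :=
    ![yW * Polynomial.C xi, Polynomial.C (e Z * xi)]
  have hC : ∀ {u v : S}, ε ∣ u - v →
      Polynomial.C ε ∣ Polynomial.C u - Polynomial.C v := by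
    intro u v h
    rw [← map_sub]
    exact map_dvd Polynomial.C h
  have hdvd := pow_dvd_eval₂ ιW hv (Polynomial.C ε) a (by
    intro j
    fin_cases j
    · simp only [a, ιW, yW, Fin.zero_eta, Matrix.cons_val_zero, Polynomial.coe_mapRingHom,
        Polynomial.map_mul, Polynomial.map_add, Polynomial.map_C, Polynomial.map_X]
      refine cn_mul_congr ?_ (hC hxi')
      have h1 := hC (hcong Y)
      have h2 := (hC hη').mul_left Polynomial.X
      have := h1.add h2
      convert this using 1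
      ring
    · simp only [a, ιW, Fin.mk_one, Matrix.cons_val_one, Matrix.cons_val_zero,
        Polynomial.coe_mapRingHom, Polynomial.map_C]
      refine hC ?_
      rw [map_mul]
      exact cn_mul_congr (hcong Z) hxi')
  have hay : Polynomial.C (e X) * a 0 = yW := by
    simp only [a, Matrix.cons_val_zero]
    rw [mul_left_comm, ← map_mul, hxi, map_one, mul_one]
  have haz : Polynomial.C (e X) * a 1 = Polynomial.C (e Z) := by
    simp only [a, Matrix.cons_val_one, Matrix.cons_val_zero]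
    rw [← map_mul, mul_left_comm, hxi, mul_one]
  let ev : MvPolynomial (Fin 2) (Polynomial K) →+* Polynomial S :=
    MvPolynomial.eval₂Hom ιW a
  have hevC : ev.comp MvPolynomial.C = ιW := by
    ext1 <;> simp [ev]
  have hform : ∀ (n : ℕ) (c' : ℕ → ℕ → Polynomial K), Polynomial.C (e X) ^ n *
      ev (form MvPolynomial.C 1 (MvPolynomial.X 0) (MvPolynomial.X 1) n c') =
      form ιW (Polynomial.C (e X)) yW (Polynomial.C (e Z)) n c' := by
    intro n c'
    rw [map_form, hevC, map_one]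
    simp only [ev, MvPolynomial.eval₂Hom_X']
    exact pow_mul_form ιW _ _ _ _ _ hay haz n c'
  have hιC : ιW.comp Polynomial.C = (Polynomial.C.comp e).comp iK := by
    rw [RingHom.comp_assoc, hcomp]
    ext1 a
    simp [ιW]
  obtain ⟨E, hE⟩ := cubic_taylor (ιW.comp Polynomial.C) (Polynomial.C (e X))
    (Polynomial.C (e Y)) (Polynomial.C (e Z)) κ (Polynomial.X * Polynomial.C η)
  have hzero : Polynomial.C (e Y) ^ 3 + form (ιW.comp Polynomial.C) (Polynomial.C (e X))
      (Polynomial.C (e Y)) (Polynomial.C (e Z)) 3 κ = 0 := by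
    have := congrArg (Polynomial.C.comp e) hκ
    rw [map_add, map_pow, map_form, map_zero, ← hιC] at this
    exact this
  have hder : form (ιW.comp Polynomial.C) (Polynomial.C (e X))
      (Polynomial.C (e Y)) (Polynomial.C (e Z)) 2
      (fun β γ => if β = 2 then 3 else ((β + 1 : ℕ) : K) * κ (β + 1) γ) =
      Polynomial.C (e ψ) := by
    have := congrArg (Polynomial.C.comp e) hψ
    rw [map_form, ← hιC] at this
    exact this.symm
  have hcub : Polynomial.C (e X) ^ 3 * ev (cub (fun β γ => Polynomial.C (κ β γ))) =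
      Polynomial.X * (Polynomial.C w + Polynomial.X * (Polynomial.C η ^ 2 * E)) := by
    have h1 : ev (cub (fun β γ => Polynomial.C (κ β γ))) = a 0 ^ 3 +
        ev (form MvPolynomial.C 1 (MvPolynomial.X 0) (MvPolynomial.X 1) 3
          (fun β γ => Polynomial.C (κ β γ))) := by
      show ev (MvPolynomial.X 0 ^ 3 + _) = _
      rw [map_add, map_pow]
      simp only [ev, MvPolynomial.eval₂Hom_X']
    rw [h1, mul_add, hform, ← mul_pow, hay, cn_form_C]
    have h2 : Polynomial.C η * Polynomial.C (e ψ) = Polynomial.C w := by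
      rw [← map_mul, hη, mul_assoc, mul_comm pi, hpi, mul_one]
    simp only [yW]
    rw [hE, hzero, hder]
    linear_combination Polynomial.X * h2
  have hmain : Polynomial.C (e X) ^ D * ev (∑ j ∈ range (D / 3 + 1),
      cub (fun β γ => Polynomial.C (κ β γ)) ^ j *
      form MvPolynomial.C 1 (MvPolynomial.X 0) (MvPolynomial.X 1) (D - 3 * j) (c j)) =
      ∑ j ∈ range (D / 3 + 1),
        (Polynomial.X * (Polynomial.C w + Polynomial.X * (Polynomial.C η ^ 2 * E))) ^ j *
        form ιW (Polynomial.C (e X)) yW (Polynomial.C (e Z)) (D - 3 * j) (c j) := by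
    rw [map_sum, Finset.mul_sum]
    refine Finset.sum_congr rfl fun j hj => ?_
    have hj' : D = 3 * j + (D - 3 * j) := by have := Finset.mem_range.1 hj; omega
    rw [← hcub, ← hform, map_mul, map_pow]
    conv_lhs => rw [hj', pow_add, pow_mul]
    rw [← hj']
    ring
  have hd2 : Polynomial.C (ε ^ m) ∣ ∑ j ∈ range (D / 3 + 1),
        (Polynomial.X * (Polynomial.C w + Polynomial.X * (Polynomial.C η ^ 2 * E))) ^ j *
        form ιW (Polynomial.C (e X)) yW (Polynomial.C (e Z)) (D - 3 * j) (c j) := by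
    rw [← hmain, map_pow]
    exact hdvd.mul_left _
  have hd3 := (Polynomial.C_dvd_iff_dvd_coeff _ _).1 hd2 μ
  rw [coeff_lowest ι (e X) (e Y) (e Z) η w _ (D / 3 + 1) μ (fun j => D - 3 * j) c hc] at hd3
  convert hd3 using 3 with j hj
  rw [map_form, hcomp]

/-- normal cone of the cubic: lowest term in `t`. -/
theorem Theta.cone {N b : ℤ} (T : Theta N b) (r : ℕ) :
    ∃ (z : Fin r → ℂˣ) (P : Fin r → Fin 2 → Polynomial KK), Function.Injective z ∧
      ∀ (D m : ℕ) (f : MvPolynomial (Fin 2) (Polynomial KK)), f ≠ 0 → f.totalDegree ≤ D →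
        (∀ l, VanishesToOrder f (P l) m) →
        ∃ c : ℕ → ℕ → ℕ → KK,
          (∃ j β γ, 3 * j ≤ D ∧ β < 3 ∧ β + γ ≤ D - 3 * j ∧ c j β γ ≠ 0) ∧
          ∀ l, HahnSeries.C eps ^ m ∣ ∑ j ∈ range (D / 3 + 1), HahnSeries.C (1 + uu) ^ j *
            hmap (evz (z l)) (form iK T.X T.Y T.Z (D - 3 * j) (c j)) := by
  classical
  obtain ⟨κ, hκ⟩ := T.exists_cubic
  obtain ⟨ψ, hψ⟩ : ∃ ψ, ψ = form iK T.X T.Y T.Z 2
      (fun β γ => if β = 2 then 3 else ((β + 1 : ℕ) : KK) * κ (β + 1) γ) := ⟨_, rfl⟩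
  have hψ0 : ψ ≠ 0 := by
    intro h
    have := T.indep 2 _ (hψ.symm.trans h) 2 0 (by omega) (by omega)
    simp only [if_true] at this
    have h3 : (HahnSeries.C (3 : ℂ) : KK) = HahnSeries.C 0 := by
      rw [map_zero, ← this]
      exact map_ofNat _ 3
    have := HahnSeries.C_injective h3
    norm_num at this
  have hp : T.X.leadingCoeff * ψ.leadingCoeff ≠ 0 :=
    mul_ne_zero (HahnSeries.leadingCoeff_ne_zero.2 T.X_ne_zero)
      (HahnSeries.leadingCoeff_ne_zero.2 hψ0)
  obtain ⟨z, hz, hz0⟩ := exists_points r _ hp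
  refine ⟨z, fun l => ![(Polynomial.C (hmap (ev0 (z l)) T.Y) +
      Polynomial.X * Polynomial.C (hmap (ev0 (z l)) ψ)⁻¹) *
          Polynomial.C (hmap (ev0 (z l)) T.X)⁻¹,
        Polynomial.C (hmap (ev0 (z l)) T.Z * (hmap (ev0 (z l)) T.X)⁻¹)], hz, ?_⟩
  intro D m f hf hD hv
  obtain ⟨c, hc⟩ := exists_expansion (fun β γ => Polynomial.C (κ β γ)) D f hD
  have hex : ∃ μ, ∃ j β γ k, j < D / 3 + 1 ∧ β < 3 ∧ β + γ ≤ D - 3 * j ∧ j + k = μ ∧
      (c j β γ).coeff k ≠ 0 := by
    by_contra hne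
    apply hf
    rw [hc]
    refine Finset.sum_eq_zero fun j hj => ?_
    rw [cn_form_zero, mul_zero]
    intro β γ hβ hγ
    ext1 k
    by_contra hk
    exact hne ⟨j + k, j, β, γ, k, Finset.mem_range.1 hj, hβ, hγ, rfl, hk⟩
  obtain ⟨j, β, γ, k, hj, hβ, hγ, hk, hne⟩ := Nat.find_spec hex
  refine ⟨fun j β γ => if j ≤ Nat.find hex then (c j β γ).coeff (Nat.find hex - j) else 0,
    ⟨j, β, γ, by omega, hβ, hγ, ?_⟩, fun l => ?_⟩
  · have h1 : j ≤ Nat.find hex := by omega
    have h2 : Nat.find hex - j = k := by omega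
    simp only [h1, if_true, h2]
    exact hne
  · have hl := hz0 l
    rw [map_mul] at hl
    have hw1 : HahnSeries.C eps ∣ (HahnSeries.C (1 + uu) : HahnSeries ℤ TT) - 1 := by
      have : (HahnSeries.C (1 + uu) : HahnSeries ℤ TT) - 1 =
          HahnSeries.C eps * HahnSeries.C (PowerSeries.C Polynomial.X) := by
        rw [map_add, map_one, ← map_mul, add_sub_cancel_left]
        rfl
      rw [this]
      exact dvd_mul_right _ _
    refine cn_point iK (hmap cT) (hmap (evz (z l))) (hmap (ev0 (z l)))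
      (RingHom.ext fun a => hmap_evz_iK (z l) a) _ _ hw1 (C_eps_dvd_sub (z l)) T.X T.Y T.Z κ hκ ψ hψ
      (isUnit_hmap_evz _ _ (left_ne_zero_of_mul hl)) (isUnit_hmap_evz _ _ (right_ne_zero_of_mul hl))
      (hmap_ev0_ne_zero _ _ (left_ne_zero_of_mul hl)) (hmap_ev0_ne_zero _ _ (right_ne_zero_of_mul hl))
      D m (Nat.find hex) c ?_ (hc ▸ hv l)
    intro j β γ k hj hβ hγ hk
    by_contra hne
    exact Nat.find_min hex hk ⟨j, β, γ, k, hj, hβ, hγ, rfl, hne⟩

end Crest.Agent.R259
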