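import Mathlib
import Crest.Prelude.Def_VanishingOrder

/-!
Row 259 (Nagata).  Basic objects.

* `KK = ℂ((Q))`, `AA = ℂ[z,z⁻¹]((Q))` (functions on one circle of the Tate curve).
* `co F n i` is the coefficient of `Q^n z^i`.
* `Tw s α β F G` says `G(z) = ` ... coefficientwise `co G (n + s i + β) (i + α) = co F n i`,
  i.e. `G(z) = Q^β z^α F(Q^s z)`.  `Tw N α β F F` is quasi-periodicity.
* `form φ x y z n c = ∑_{β ≤ 2, β + γ ≤ n} φ(c β γ) x^(n-β-γ) y^β z^γ`.
-/

set_option autoImplicit false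

noncomputable section

namespace Crest.Agent.R259

open Finset

abbrev LP := LaurentPolynomial ℂ
abbrev KK := HahnSeries ℤ ℂ
abbrev AA := HahnSeries ℤ LP
abbrev TT := PowerSeries (Polynomial ℂ)

/-- coefficientwise ring homomorphism of Hahn series -/
def hmap {R S : Type*} [CommRing R] [CommRing S] (φ : R →+* S) :
    HahnSeries ℤ R →+* HahnSeries ℤ S where
  toFun F := F.map φ
  map_one' := HahnSeries.map_one φ.toMonoidWithZeroHom
  map_mul' _ _ := HahnSeries.map_mul φ.toNonUnitalRingHom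
  map_zero' := by ext; simp
  map_add' _ _ := by ext; simp

@[simp] theorem hmap_coeff {R S : Type*} [CommRing R] [CommRing S] (φ : R →+* S)
    (F : HahnSeries ℤ R) (n : ℤ) : (hmap φ F).coeff n = φ (F.coeff n) := rfl

theorem hmap_comp {R S U : Type*} [CommRing R] [CommRing S] [CommRing U] (φ : R →+* S)
    (ψ : S →+* U) (F : HahnSeries ℤ R) : hmap ψ (hmap φ F) = hmap (ψ.comp φ) F := by
  ext; rfl

theorem hmap_C {R S : Type*} [CommRing R] [CommRing S] (φ : R →+* S) (a : R) :
    hmap φ (HahnSeries.C a) = HahnSeries.C (φ a) := HahnSeries.map_C a φ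

/-- constants -/
def iK : KK →+* AA := hmap LaurentPolynomial.C

/-- coefficient of `Q^n z^i` -/
def co (F : AA) (n i : ℤ) : ℂ := (F.coeff n).coeff i

/-- `G(z) = Q^β z^α F(Q^s z)` -/
def Tw (s α β : ℤ) (F G : AA) : Prop := ∀ n i : ℤ, co G (n + s * i + β) (i + α) = co F n i

/-- forms of degree `n` in `x, y, z` of degree at most two in `y` -/
def form {K R : Type*} [CommRing K] [CommRing R] (φ : K →+* R) (x y z : R) (n : ℕ)
    (c : ℕ → ℕ → K) : R :=
  ∑ β ∈ range 3, ∑ γ ∈ range (n + 1 - β), φ (c β γ) * (x ^ (n - β - γ) * y ^ β * z ^ γ)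

theorem form_def {K R : Type*} [CommRing K] [CommRing R] (φ : K →+* R) (x y z : R) (n : ℕ)
    (c : ℕ → ℕ → K) : form φ x y z n c =
    ∑ β ∈ range 3, ∑ γ ∈ range (n + 1 - β), φ (c β γ) * (x ^ (n - β - γ) * y ^ β * z ^ γ) := rfl

theorem map_form {K R S : Type*} [CommRing K] [CommRing R] [CommRing S] (φ : K →+* R)
    (ψ : R →+* S) (x y z : R) (n : ℕ) (c : ℕ → ℕ → K) :
    ψ (form φ x y z n c) = form (ψ.comp φ) (ψ x) (ψ y) (ψ z) n c := by
  simp only [form, map_sum, map_mul, map_pow, RingHom.comp_apply]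

/-- homogenisation -/
theorem pow_mul_form {K R : Type*} [CommRing K] [CommRing R] (φ : K →+* R) (x y z y' z' : R)
    (hy : x * y' = y) (hz : x * z' = z) (n : ℕ) (c : ℕ → ℕ → K) :
    x ^ n * form φ 1 y' z' n c = form φ x y z n c := by
  simp only [form, Finset.mul_sum]
  refine Finset.sum_congr rfl fun β _ => Finset.sum_congr rfl fun γ hγ => ?_
  have h : n = (n - β - γ) + β + γ := by have := Finset.mem_range.1 hγ; omega
  rw [← hy, ← hz]
  conv_lhs => rw [h]
  simp only [pow_add, mul_pow, one_pow]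
  ring

/-- Degree three theta series on the circle of slope `b / N`. -/
structure Theta (N b : ℤ) where
  X : AA
  Y : AA
  Z : AA
  qX : Tw N 3 (-b) X X
  qY : Tw N 3 (-b) Y Y
  qZ : Tw N 3 (-b) Z Z
  indep : ∀ (n : ℕ) (c : ℕ → ℕ → KK), form iK X Y Z n c = 0 →
    ∀ β γ, β < 3 → β + γ ≤ n → c β γ = 0

/-- the parameter `ε` -/
def eps : TT := PowerSeries.X
/-- `u = ε υ` -/
def uu : TT := PowerSeries.X * PowerSeries.C (Polynomial.X : Polynomial ℂ)
/-- constants in `TT` -/
def cT : ℂ →+* TT := (PowerSeries.C (R := Polynomial ℂ)).comp Polynomial.C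

theorem isUnit_cT_add_eps (z0 : ℂˣ) : IsUnit (cT (z0 : ℂ) + eps) := by
  rw [PowerSeries.isUnit_iff_constantCoeff]
  simp only [cT, eps, map_add, RingHom.comp_apply, PowerSeries.constantCoeff_C,
    PowerSeries.constantCoeff_X, add_zero]
  exact (Units.isUnit z0).map Polynomial.C

/-- substitution `z = z0 + ε` -/
def evz (z0 : ℂˣ) : LP →+* TT := LaurentPolynomial.eval₂ cT (isUnit_cT_add_eps z0).unit
/-- substitution `z = z0` -/
def ev0 (z0 : ℂˣ) : LP →+* ℂ := LaurentPolynomial.eval₂ (RingHom.id ℂ) z0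

end Crest.Agent.R259
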