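import Crest.Agent.R259.Theta
import Crest.Agent.R259.Tri
import Crest.Agent.R259.Expand
import Crest.Agent.R259.Ev
import Crest.Agent.R259.Cone

/-! Row 259: the two degenerations. -/

set_option autoImplicit false

noncomputable section

namespace Crest.Agent.R259

open Finset Crest.AlgGeometry

/-- Tate degeneration: lowest term in `Q`. -/
theorem Theta.tate {N b : ℤ} (T : Theta N b) {r : ℕ} (z : Fin r → ℂˣ) (D m : ℕ)
    (c : ℕ → ℕ → ℕ → KK)
    (hc : ∃ j β γ, 3 * j ≤ D ∧ β < 3 ∧ β + γ ≤ D - 3 * j ∧ c j β γ ≠ 0)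
    (h : ∀ l, HahnSeries.C eps ^ m ∣ ∑ j ∈ range (D / 3 + 1), HahnSeries.C (1 + uu) ^ j *
      hmap (evz (z l)) (form iK T.X T.Y T.Z (D - 3 * j) (c j))) :
    ∃ g : ℕ → LP, (∃ j, 3 * j ≤ D ∧ g j ≠ 0) ∧
      (∀ (j : ℕ) (i : ℤ), 3 * j ≤ D → (g j).coeff i ≠ 0 →
        b * ((D - 3 * j : ℕ) : ℤ) ≤ N * i ∧ N * i ≤ (b + 3 * N) * ((D - 3 * j : ℕ) : ℤ)) ∧
      ∀ l, eps ^ m ∣ ∑ j ∈ range (D / 3 + 1), (1 + uu) ^ j * evz (z l) (g j) := by
  classical
  set F : ℕ → AA := fun j => form iK T.X T.Y T.Z (D - 3 * j) (c j) with hF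
  have hne : ((range (D / 3 + 1)).filter fun j => F j ≠ 0).Nonempty := by
    obtain ⟨j, β, γ, h1, h2, h3, h4⟩ := hc
    exact ⟨j, mem_filter.2 ⟨mem_range.2 (by omega), fun h0 => h4 (T.indep _ _ h0 β γ h2 h3)⟩⟩
  obtain ⟨j₁, hj₁, hmin⟩ := exists_min_image _ (fun j => (F j).order) hne
  obtain ⟨hj₁, hF₁⟩ := mem_filter.1 hj₁
  refine ⟨fun j => (F j).coeff (F j₁).order, ⟨j₁, by have := mem_range.1 hj₁; omega,
    fun h0 => hF₁ (HahnSeries.coeff_order_eq_zero.1 h0)⟩, fun j i hj hi => ?_, fun l => ?_⟩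
  · have h1 : ∀ n, n < (F j₁).order → (F j).coeff n = 0 := fun n hn => by
      by_cases h0 : F j = 0
      · rw [h0]; rfl
      · exact HahnSeries.coeff_eq_zero_of_lt_order
          (hn.trans_le (hmin j (mem_filter.2 ⟨mem_range.2 (by omega), h0⟩)))
    obtain ⟨a1, a2⟩ := (Tw.form T.qX T.qY T.qZ (D - 3 * j) (c j)).lead_bound h1 hi
    constructor <;> linarith
  · obtain ⟨H, hH⟩ := h l
    refine ⟨H.coeff (F j₁).order, ?_⟩
    have h1 := congrArg (fun G : HahnSeries ℤ TT => G.coeff (F j₁).order) hH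
    simp only [← map_pow, HahnSeries.C_mul_eq_smul, HahnSeries.coeff_sum, HahnSeries.coeff_smul,
      smul_eq_mul, hmap_coeff] at h1
    exact h1

/-- the uniform case at special points. -/
theorem exists_special (r : ℕ) (hr : 10 ≤ r) (D m : ℕ) (hD : 1 ≤ D)
    (hm : (D : ℝ) ≤ Real.sqrt r * m) :
    ∃ P : Fin r → Fin 2 → Polynomial KK, ∀ f : MvPolynomial (Fin 2) (Polynomial KK),
      f.totalDegree ≤ D → (∀ l, VanishesToOrder f (P l) m) → f = 0 := by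
  obtain ⟨N0, s, hN0, hs⟩ := exists_slope r D
  obtain ⟨T⟩ := exists_theta N0 hN0 s
  obtain ⟨z, P, hz, hP⟩ := T.cone r
  refine ⟨P, fun f hf hv => ?_⟩
  by_contra h0
  obtain ⟨c, hc, hd⟩ := hP D m f h0 hf hv
  obtain ⟨g, ⟨j₀, hj₀, hg₀⟩, hsupp, hdvd⟩ := T.tate z D m c hc hd
  have h3 : 3 ≤ Real.sqrt r := by
    refine Real.le_sqrt_of_sq_le ?_
    have : (10 : ℝ) ≤ r := by exact_mod_cast hr
    linarith
  have hw : ∀ (j : ℕ) (i : ℤ), 3 * j ≤ D → (g j).coeff i ≠ 0 →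
      (Real.sqrt r - 3) * ((D - 3 * j : ℕ) : ℝ) ≤ i ∧
        ((i : ℝ) < Real.sqrt r * ((D - 3 * j : ℕ) : ℝ) ∨ (i = 0 ∧ D - 3 * j = 0)) :=
    fun j i hj hi => hs (D - 3 * j) i (Nat.sub_le _ _) (hsupp j i hj hi).1 (hsupp j i hj hi).2
  have hp : ∀ j : ℕ, ∃ p : Polynomial ℂ, 3 * j ≤ D →
      Polynomial.toLaurent p = g j ∧ ∀ i : ℕ, p.coeff i = (g j).coeff (i : ℤ) := by
    intro j
    by_cases hj : 3 * j ≤ D
    · obtain ⟨p, hp⟩ := exists_toLaurent (g j) fun i hi => by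
        have h1 := (hw j i hj hi).1
        have h2 : (0 : ℝ) ≤ (Real.sqrt r - 3) * ((D - 3 * j : ℕ) : ℝ) :=
          mul_nonneg (by linarith) (Nat.cast_nonneg _)
        exact_mod_cast h2.trans h1
      exact ⟨p, fun _ => hp⟩
    · exact ⟨0, fun h => absurd h hj⟩
  choose p hp using hp
  have key := triangle r hr D m hD hm (fun l => (z l : ℂ)) (Units.val_injective.comp hz)
    (fun l => (z l).ne_zero) p (fun j i hj hi => by
      rw [(hp j hj).2] at hi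
      obtain ⟨a1, a2⟩ := hw j i hj hi
      have e : ((D - 3 * j : ℕ) : ℝ) = (D : ℝ) - 3 * j := by rw [Nat.cast_sub hj]; push_cast; ring
      rw [e] at a1 a2
      refine ⟨by exact_mod_cast a1, a2.imp (fun a => by exact_mod_cast a) fun a => ⟨?_, ?_⟩⟩
      · exact_mod_cast a.1
      · omega)
    (fun l => decode (z l) (D / 3 + 1) m p (by
      have e : ∑ j ∈ range (D / 3 + 1), (1 + uu) ^ j * evz (z l) (Polynomial.toLaurent (p j)) =
          ∑ j ∈ range (D / 3 + 1), (1 + uu) ^ j * evz (z l) (g j) :=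
        sum_congr rfl fun j hj => by rw [(hp j (by have := mem_range.1 hj; omega)).1]
      rw [e]
      exact hdvd l))
  refine hg₀ ?_
  rw [← (hp j₀ hj₀).1, key j₀ hj₀, map_zero]

end Crest.Agent.R259
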