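import Crest.Agent.R259.Expand

/-! Row 259: very general points. -/

set_option autoImplicit false

noncomputable section

namespace Crest.Agent.R259

open Finset Crest.AlgGeometry

theorem gn_minor_field {K ι κ : Type*} [Field K] [Fintype ι] [Fintype κ]
    [DecidableEq κ] (M : Matrix ι κ K) (h : ∀ v : κ → K, M.mulVec v = 0 → v = 0) :
    ∃ σ : κ → ι, (M.submatrix σ id).det ≠ 0 := by
  classical
  have hinj : Function.Injective M.mulVecLin := (injective_iff_map_eq_zero _).2 h
  have hrank : M.rank = Fintype.card κ := by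
    rw [Matrix.rank, LinearMap.finrank_range_of_inj hinj, Module.finrank_fintype_fun_eq_card]
  rw [Matrix.rank_eq_finrank_span_row] at hrank
  obtain ⟨κ', a, ha, hspan, hli⟩ := exists_linearIndependent' K M.row
  have : Finite κ' := Finite.of_injective a ha
  let _ : Fintype κ' := Fintype.ofFinite κ'
  have hcard : Fintype.card κ = Fintype.card κ' := by
    rw [← hrank, ← hspan, finrank_span_eq_card hli]
  let e : κ ≃ κ' := Fintype.equivOfCardEq hcard
  refine ⟨a ∘ e, ?_⟩
  have h2 : LinearIndependent K (M.submatrix (a ∘ e) id).row := hli.comp e e.injective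
  have h3 := Matrix.linearIndependent_rows_iff_isUnit.1 h2
  exact ((Matrix.isUnit_iff_isUnit_det _).1 h3).ne_zero

/-- an injective matrix over a domain has a nonzero maximal minor (pass to the fraction field). -/
theorem exists_minor {R ι κ : Type*} [CommRing R] [IsDomain R] [Fintype ι] [Fintype κ]
    [DecidableEq κ] (M : Matrix ι κ R) (h : ∀ v : κ → R, M.mulVec v = 0 → v = 0) :
    ∃ σ : κ → ι, (M.submatrix σ id).det ≠ 0 := by
  classical
  let φ := algebraMap R (FractionRing R)
  have hφ : Function.Injective φ := IsFractionRing.injective R (FractionRing R)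
  obtain ⟨σ, hσ⟩ := gn_minor_field (M.map φ) (by
    intro v hv
    obtain ⟨b, hb⟩ := IsLocalization.exist_integer_multiples_of_finite (nonZeroDivisors R) v
    choose w hw using hb
    have hw0 : w = 0 := by
      refine h w (funext fun i => hφ ?_)
      have h1 : φ (M.mulVec w i) = (M.map φ).mulVec (φ ∘ w) i := RingHom.map_mulVec φ M w i
      have h2 : φ ∘ w = (b : R) • v := funext fun j => hw j
      rw [h1, h2, Matrix.mulVec_smul, hv]
      simp
    funext j
    have h3 := hw j
    rw [hw0, Pi.zero_apply, map_zero, Algebra.smul_def] at h3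
    have h4 : algebraMap R (FractionRing R) b ≠ 0 :=
      IsFractionRing.to_map_ne_zero_of_mem_nonZeroDivisors b.2
    exact (mul_eq_zero.1 h3.symm).resolve_left h4)
  refine ⟨σ, fun h0 => hσ ?_⟩
  have := RingHom.map_det φ (M.submatrix σ id)
  rw [h0, map_zero] at this
  exact this.symm

/-- the matrix of conditions -/
def gnMat {R : Type*} [CommRing R] {r : ℕ} (d : ℕ) (m : Fin r → ℕ) (P : Fin r → Fin 2 → R) :
    Matrix (Σ i : Fin r, {α : Fin 2 →₀ ℕ // α.degree < m i}) {β : Fin 2 →₀ ℕ // β.degree ≤ d} R :=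
  fun a β => MvPolynomial.coeff a.2.1
    (MvPolynomial.aeval (fun j => MvPolynomial.X j + MvPolynomial.C (P a.1 j))
      (MvPolynomial.monomial β.1 (1 : R)))

theorem gnMat_map {R S : Type*} [CommRing R] [CommRing S] (φ : R →+* S) {r : ℕ} (d : ℕ)
    (m : Fin r → ℕ) (P : Fin r → Fin 2 → R) :
    (gnMat d m P).map φ = gnMat d m (fun i j => φ (P i j)) := by
  ext a β
  simp only [gnMat, Matrix.map_apply]
  rw [← MvPolynomial.coeff_map]
  congr 1
  rw [MvPolynomial.aeval_monomial, MvPolynomial.aeval_monomial]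
  simp [Finsupp.prod, map_prod]

instance gnFin1 (d : ℕ) : Finite {β : Fin 2 →₀ ℕ // β.degree ≤ d} :=
  (Finsupp.finite_of_degree_le d).to_subtype

instance gnFin2 (d : ℕ) : Finite {β : Fin 2 →₀ ℕ // β.degree < d} :=
  (Finsupp.finite_of_degree_lt d).to_subtype

theorem gn_kernel {R : Type*} [CommRing R] {r : ℕ} (d : ℕ) (m : Fin r → ℕ)
    (P : Fin r → Fin 2 → R) [Fintype {β : Fin 2 →₀ ℕ // β.degree ≤ d}]
    (v : {β : Fin 2 →₀ ℕ // β.degree ≤ d} → R) :
    (gnMat d m P).mulVec v = 0 ↔
      ∀ i, VanishesToOrder (∑ β, MvPolynomial.monomial β.1 (v β)) (P i) (m i) := by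
  have key : ∀ (i : Fin r) (α : {α : Fin 2 →₀ ℕ // α.degree < m i}),
      (gnMat d m P).mulVec v ⟨i, α⟩ = MvPolynomial.coeff α.1
        (MvPolynomial.aeval (fun j => MvPolynomial.X j + MvPolynomial.C (P i j))
          (∑ β, MvPolynomial.monomial β.1 (v β))) := by
    intro i α
    rw [map_sum, MvPolynomial.coeff_sum]
    simp only [Matrix.mulVec, dotProduct, gnMat]
    refine Finset.sum_congr rfl fun β _ => ?_
    have : (MvPolynomial.monomial β.1 (v β) : MvPolynomial (Fin 2) R) =
        v β • MvPolynomial.monomial β.1 (1 : R) := by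
      rw [MvPolynomial.smul_monomial, smul_eq_mul, mul_one]
    rw [this, map_smul, MvPolynomial.coeff_smul, smul_eq_mul, mul_comm]
  constructor
  · intro h i
    rw [vanishes_iff_coeff]
    intro α hα
    rw [← key i ⟨α, hα⟩, h]
    rfl
  · intro h
    funext ⟨i, α⟩
    rw [key]
    exact (vanishes_iff_coeff _ _ _).1 (h i) α.1 α.2

theorem gn_coeff {R : Type*} [CommRing R] (d : ℕ) [Fintype {β : Fin 2 →₀ ℕ // β.degree ≤ d}]
    (v : {β : Fin 2 →₀ ℕ // β.degree ≤ d} → R) (α : Fin 2 →₀ ℕ) :
    MvPolynomial.coeff α (∑ β, MvPolynomial.monomial β.1 (v β)) =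
      if h : α.degree ≤ d then v ⟨α, h⟩ else 0 := by
  classical
  rw [MvPolynomial.coeff_sum]
  simp only [MvPolynomial.coeff_monomial]
  split_ifs with h
  · rw [Finset.sum_eq_single ⟨α, h⟩]
    · simp
    · intro b _ hb
      exact if_neg fun hh => hb (Subtype.ext hh)
    · simp
  · exact Finset.sum_eq_zero fun b _ => if_neg fun (hh : b.1 = α) => h (hh ▸ b.2)

theorem gn_degree_le {R : Type*} [CommRing R] {d : ℕ} {f : MvPolynomial (Fin 2) R} :
    f.totalDegree ≤ d ↔ ∀ α : Fin 2 →₀ ℕ, MvPolynomial.coeff α f ≠ 0 → α.degree ≤ d := by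
  rw [MvPolynomial.totalDegree, Finset.sup_le_iff]
  simp only [MvPolynomial.mem_support_iff]
  rfl

/-- if at one tuple of points over some domain there is no curve of degree `≤ d` with
multiplicities `m`, the same holds outside a hypersurface.  (Matrix with rows `(i, α)`,
`|α| < m i`, columns `β`, `|β| ≤ d`, entry `coeff α ((X + p i)^β)`, over `ℂ[p]`.) -/
theorem exists_condition {R : Type*} [CommRing R] [IsDomain R] [Algebra ℂ R] (r d : ℕ)
    (m : Fin r → ℕ) (P : Fin r → Fin 2 → R)
    (h : ∀ f : MvPolynomial (Fin 2) R, f.totalDegree ≤ d →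
      (∀ i, VanishesToOrder f (P i) (m i)) → f = 0) :
    ∃ g : MvPolynomial (Fin r × Fin 2) ℂ, g ≠ 0 ∧ ∀ p : Fin r → Fin 2 → ℂ,
      MvPolynomial.eval (fun ij : Fin r × Fin 2 => p ij.1 ij.2) g ≠ 0 →
      ∀ f : MvPolynomial (Fin 2) ℂ, f.totalDegree ≤ d →
        (∀ i, VanishesToOrder f (p i) (m i)) → f = 0 := by
  classical
  let _ : Fintype {β : Fin 2 →₀ ℕ // β.degree ≤ d} := Fintype.ofFinite _
  let _ : Fintype (Σ i : Fin r, {α : Fin 2 →₀ ℕ // α.degree < m i}) := Fintype.ofFinite _
  obtain ⟨σ, hσ⟩ := exists_minor (gnMat d m P) (by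
    intro v hv
    have h0 := h _ (gn_degree_le.2 fun α hα => by
      rw [gn_coeff] at hα
      by_contra hh
      exact hα (dif_neg hh)) ((gn_kernel d m P v).1 hv)
    funext β
    have := gn_coeff d v β.1
    rw [h0, dif_pos β.2] at this
    exact this.symm)
  let U : Fin r → Fin 2 → MvPolynomial (Fin r × Fin 2) ℂ := fun i j => MvPolynomial.X (i, j)
  have hmap : ∀ {S : Type _} [CommRing S] (φ : MvPolynomial (Fin r × Fin 2) ℂ →+* S),
      φ ((gnMat d m U).submatrix σ id).det =
        ((gnMat d m (fun i j => φ (U i j))).submatrix σ id).det := by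
    intro S _ φ
    rw [RingHom.map_det, ← gnMat_map]
    rfl
  have hmap' : ∀ (φ : MvPolynomial (Fin r × Fin 2) ℂ →+* ℂ),
      φ ((gnMat d m U).submatrix σ id).det =
        ((gnMat d m (fun i j => φ (U i j))).submatrix σ id).det := by
    intro φ
    rw [RingHom.map_det, ← gnMat_map]
    rfl
  refine ⟨((gnMat d m U).submatrix σ id).det, fun h0 => hσ ?_, ?_⟩
  · have := hmap (MvPolynomial.aeval (R := ℂ) fun ij : Fin r × Fin 2 => P ij.1 ij.2).toRingHom
    rw [h0, map_zero] at this
    simpa [U] using this.symm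
  · intro p hp f hf hv
    rw [hmap'] at hp
    simp only [U, MvPolynomial.eval_X] at hp
    have hf' : f = ∑ β : {β : Fin 2 →₀ ℕ // β.degree ≤ d},
        MvPolynomial.monomial β.1 (MvPolynomial.coeff β.1 f) := by
      ext α
      rw [gn_coeff d (fun β => MvPolynomial.coeff β.1 f)]
      split_ifs with hα
      · rfl
      · by_contra hh
        exact hα (gn_degree_le.1 hf α hh)
    have h1 := (gn_kernel d m p (fun β => MvPolynomial.coeff β.1 f)).2 (hf' ▸ hv)
    have h2 : (fun β : {β : Fin 2 →₀ ℕ // β.degree ≤ d} => MvPolynomial.coeff β.1 f) = 0 := by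
      refine Matrix.eq_zero_of_mulVec_eq_zero hp (funext fun k => ?_)
      exact congrFun h1 (σ k)
    rw [hf']
    exact Finset.sum_eq_zero fun β _ => by
      rw [show MvPolynomial.coeff β.1 f = 0 from congrFun h2 β, map_zero]

/-- countably many nonzero complex polynomials have a common non-root. -/
theorem exists_avoid {σ : Type*} [Finite σ] (S : Set (MvPolynomial σ ℂ)) (hS : S.Countable)
    (h0 : ∀ g ∈ S, g ≠ 0) : ∃ x : σ → ℂ, ∀ g ∈ S, MvPolynomial.eval x g ≠ 0 := by
  classical
  let _ : Fintype σ := Fintype.ofFinite σ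
  have hd : Dense (⋂ g ∈ S, {x : σ → ℂ | MvPolynomial.eval x g ≠ 0}) := by
    refine dense_biInter_of_isOpen (fun g _ => ?_) hS (fun g hg => ?_)
    · exact isOpen_ne_fun (MvPolynomial.continuous_eval g) continuous_const
    · rw [Metric.dense_iff]
      intro x ρ hρ
      by_contra hne
      apply h0 g hg
      refine MvPolynomial.funext_set (fun i => Metric.ball (x i) ρ)
        (fun i => infinite_of_mem_nhds (x i) (Metric.ball_mem_nhds _ hρ)) fun y hy => ?_
      rw [map_zero]
      by_contra hy0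
      refine hne ⟨y, ?_, hy0⟩
      rw [ball_pi x hρ]
      exact hy
  obtain ⟨x, hx⟩ := hd.nonempty
  exact ⟨x, fun g hg => Set.mem_iInter₂.1 hx g hg⟩

/-- symmetrisation over cyclic shifts: if for every shift `k` there is a curve `f k` with
multiplicity `m i` at `P (i + k)`, the product has degree `≤ r d` and multiplicity `∑ m`. -/
theorem exists_shift_empty {R : Type*} [CommRing R] [IsDomain R] (r d : ℕ) (hr : 1 ≤ r)
    (m : Fin r → ℕ) (P : Fin r → Fin 2 → R)
    (h : ∀ f : MvPolynomial (Fin 2) R, f.totalDegree ≤ r * d →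
      (∀ i, VanishesToOrder f (P i) (∑ l, m l)) → f = 0) :
    ∃ π : Fin r → Fin r, ∀ f : MvPolynomial (Fin 2) R, f.totalDegree ≤ d →
      (∀ i, VanishesToOrder f (P (π i)) (m i)) → f = 0 := by
  classical
  obtain ⟨n, rfl⟩ : ∃ n, r = n + 1 := ⟨r - 1, by omega⟩
  by_contra hne
  push Not at hne
  choose f hf hv h0 using hne
  refine Finset.prod_ne_zero_iff.2 (fun (k : Fin (n + 1)) (_ : k ∈ univ) => h0 fun i => i + k)
    (h _ ?_ fun i => ?_)
  · refine (MvPolynomial.totalDegree_finsetProd _ _).trans ?_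
    refine (Finset.sum_le_sum fun k _ => hf _).trans ?_
    simp
  · have h1 := vanishes_prod univ (fun k : Fin (n + 1) => f fun i => i + k) (P i)
      (fun k => m (i - k)) (fun k _ => by
        have := hv (fun i => i + k) (i - k)
        simpa using this)
    have h2 : ∑ k : Fin (n + 1), m (i - k) = ∑ l, m l :=
      Fintype.sum_equiv (Equiv.subLeft i) _ _ fun _ => rfl
    rwa [h2] at h1

end Crest.Agent.R259
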