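import Crest.Agent.R259.Tw

/-! Row 259: existence of degree three theta series, independence, the cubic relation. -/

set_option autoImplicit false

noncomputable section

namespace Crest.Agent.R259

open Finset

/-- the series `∑_i c i Q^(E i) z^i`. -/
theorem exists_series (E : ℤ → ℤ) (c : ℤ → ℂ) (hE : ∀ B : ℤ, {i | E i ≤ B}.Finite) :
    ∃ F : AA, ∀ n i, co F n i = if n = E i then c i else 0 := by
  have hfin : ∀ n : ℤ, (Function.support fun i => if n = E i then c i else 0).Finite := by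
    intro n
    refine (hE n).subset fun i hi => ?_
    by_contra h
    exact hi (if_neg fun e => h (le_of_eq e.symm))
  obtain ⟨B, hB⟩ := ((hE 0).image E).bddBelow
  refine ⟨HahnSeries.ofSuppBddBelow
    (fun n => AddMonoidAlgebra.ofCoeff (Finsupp.ofSupportFinite _ (hfin n))) ⟨min B 0, ?_⟩,
    fun n i => rfl⟩
  intro n hn
  by_contra h
  rw [not_le, lt_min_iff] at h
  refine hn (LaurentPolynomial.ext fun i => ?_)
  refine if_neg fun e => ?_
  have h1 : B ≤ E i := hB ⟨i, by change E i ≤ 0; omega, rfl⟩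
  omega

theorem indep_orders {J : Type} (S : Finset J) (k : J → ℕ) (hk : ∀ i ∈ S, ∀ j ∈ S, k i = k j → i = j)
    (q : J → Polynomial ℂ) (hq : ∀ j ∈ S, (q j).eval (-1) ≠ 0) (c : J → ℂ)
    (h : ∑ j ∈ S, Polynomial.C (c j) * (q j * (1 + Polynomial.X) ^ k j) = 0) :
    ∀ j ∈ S, c j = 0 := by
  classical
  by_contra hne
  push Not at hne
  obtain ⟨j₁, hj₁, hc₁⟩ := hne
  obtain ⟨j₀, hj₀, hmin⟩ := (S.filter fun j => c j ≠ 0).exists_min_image k
    ⟨j₁, Finset.mem_filter.mpr ⟨hj₁, hc₁⟩⟩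
  obtain ⟨hj₀S, hc₀⟩ := Finset.mem_filter.mp hj₀
  have e : ∑ j ∈ S, Polynomial.C (c j) * (q j * (1 + Polynomial.X) ^ k j) =
      (1 + Polynomial.X) ^ k j₀ *
        ∑ j ∈ S, Polynomial.C (c j) * (q j * (1 + Polynomial.X) ^ (k j - k j₀)) := by
    rw [Finset.mul_sum]
    refine Finset.sum_congr rfl fun j hj => ?_
    by_cases hc : c j = 0
    · simp [hc]
    · obtain ⟨d, hd⟩ := Nat.exists_eq_add_of_le (hmin j (Finset.mem_filter.mpr ⟨hj, hc⟩))
      rw [hd, Nat.add_sub_cancel_left, pow_add]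
      ring
  have h1 : (1 + Polynomial.X : Polynomial ℂ) ≠ 0 := by
    intro h0
    simpa using congrArg (Polynomial.eval 0) h0
  rw [e] at h
  have h2 := congrArg (Polynomial.eval (-1)) ((mul_eq_zero.mp h).resolve_left (pow_ne_zero _ h1))
  rw [Polynomial.eval_finsetSum, Finset.sum_eq_single_of_mem j₀ hj₀S] at h2
  · simp only [Nat.sub_self, pow_zero, mul_one, Polynomial.eval_mul, Polynomial.eval_C,
      Polynomial.eval_zero] at h2
    exact mul_ne_zero hc₀ (hq j₀ hj₀S) h2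
  · intro j hj hjj
    by_cases hc : c j = 0
    · simp [hc]
    · have h3 := hmin j (Finset.mem_filter.mpr ⟨hj, hc⟩)
      have h4 : k j - k j₀ ≠ 0 := fun h5 => hjj (hk j hj j₀ hj₀S (by omega))
      simp [h4]

/-- the polynomials `z^(n-β-γ) (z(1+z))^β ((1+z)^3)^γ`, `β ≤ 2`, have distinct orders at `-1`. -/
theorem indep_poly (n : ℕ) (c : ℕ → ℕ → ℂ)
    (h : form Polynomial.C Polynomial.X (Polynomial.X * (1 + Polynomial.X))
      ((1 + Polynomial.X) ^ 3) n c = 0) :
    ∀ β γ, β < 3 → β + γ ≤ n → c β γ = 0 := by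
  intro β γ hβ hγ
  rw [form_def, Finset.sum_sigma'] at h
  refine indep_orders ((range 3).sigma fun β => range (n + 1 - β)) (fun j => j.1 + 3 * j.2) ?_
    (fun j => Polynomial.X ^ (n - j.1 - j.2) * Polynomial.X ^ j.1) (fun j _ => by simp)
    (fun j => c j.1 j.2) ?_ ⟨β, γ⟩ ?_
  · rintro ⟨a, b⟩ hi ⟨a', b'⟩ hj hk
    simp only [Finset.mem_sigma, Finset.mem_range] at hi hj hk
    have h1 : a = a' := by omega
    have h2 : b = b' := by omega
    rw [h1, h2]
  · rw [← h]
    refine Finset.sum_congr rfl fun j _ => ?_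
    rw [mul_pow, pow_add, pow_mul]
    ring
  · simp only [Finset.mem_sigma, Finset.mem_range]
    omega

/-- `F` has order at least `ν` and the coefficient `a` at `ν` -/
def TieLead (F : AA) (ν : ℤ) (a : LP) : Prop := (∀ n, n < ν → F.coeff n = 0) ∧ F.coeff ν = a

theorem TieLead.mul {F G : AA} {ν μ : ℤ} {a b : LP} (hF : TieLead F ν a) (hG : TieLead G μ b) :
    TieLead (F * G) (ν + μ) (a * b) := by
  have key : ∀ i j : ℤ, i + j ≤ ν + μ → (i, j) ≠ (ν, μ) → F.coeff i * G.coeff j = 0 := by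
    intro i j h1 h2
    by_cases hi : i < ν
    · rw [hF.1 i hi, zero_mul]
    · have hj : j < μ := by
        by_contra hj
        exact h2 (Prod.ext (by omega) (by omega))
      rw [hG.1 j hj, mul_zero]
  constructor
  · intro n hn
    rw [HahnSeries.coeff_mul]
    refine Finset.sum_eq_zero fun ij hij => ?_
    have h1 := (Finset.mem_antidiagonal.mp hij).2.2
    refine key _ _ (by omega) fun h => ?_
    have h2 := congrArg Prod.fst h
    have h3 := congrArg Prod.snd h
    dsimp only at h2 h3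
    omega
  · rw [HahnSeries.coeff_mul, Finset.sum_eq_single (ν, μ), hF.2, hG.2]
    · intro ij hij hne
      exact key _ _ (Finset.mem_antidiagonal.mp hij).2.2.le hne
    · intro h
      by_contra h0
      exact h (Finset.mem_antidiagonal.mpr
        ⟨left_ne_zero_of_mul h0, right_ne_zero_of_mul h0, rfl⟩)

theorem TieLead.pow {F : AA} {a : LP} (hF : TieLead F 0 a) (k : ℕ) : TieLead (F ^ k) 0 (a ^ k) := by
  induction k with
  | zero =>
    rw [pow_zero, pow_zero]
    exact ⟨fun n hn => by rw [HahnSeries.coeff_one, if_neg hn.ne], by simp⟩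
  | succ k ih =>
    rw [pow_succ, pow_succ]
    simpa using ih.mul hF

/-- independence on the circle where the lowest terms are `z, z(1+z), (1+z)^3`: look at the
coefficient of `Q^ν`, `ν` the least order of the `c β γ`. -/
theorem indep_tie (X Y Z : AA) (hX : ∀ n, n < 0 → X.coeff n = 0) (hY : ∀ n, n < 0 → Y.coeff n = 0)
    (hZ : ∀ n, n < 0 → Z.coeff n = 0)
    (hX0 : X.coeff 0 = Polynomial.toLaurent Polynomial.X)
    (hY0 : Y.coeff 0 = Polynomial.toLaurent (Polynomial.X * (1 + Polynomial.X)))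
    (hZ0 : Z.coeff 0 = Polynomial.toLaurent ((1 + Polynomial.X) ^ 3))
    (n : ℕ) (c : ℕ → ℕ → KK) (h : form iK X Y Z n c = 0) :
    ∀ β γ, β < 3 → β + γ ≤ n → c β γ = 0 := by
  classical
  by_contra hne
  push Not at hne
  obtain ⟨β₁, γ₁, h1, h2, h3⟩ := hne
  obtain ⟨j₀, hj₀, hmin⟩ := ((range 3 ×ˢ range (n + 1)).filter
    fun j : ℕ × ℕ => j.1 + j.2 ≤ n ∧ c j.1 j.2 ≠ 0).exists_min_image (fun j => (c j.1 j.2).order)
    ⟨(β₁, γ₁), Finset.mem_filter.mpr ⟨Finset.mem_product.mpr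
      ⟨Finset.mem_range.mpr h1, Finset.mem_range.mpr (by omega)⟩, h2, h3⟩⟩
  obtain ⟨hj₁, hj₂, hj₃⟩ := Finset.mem_filter.mp hj₀
  obtain ⟨ν, hν⟩ : ∃ ν, ν = (c j₀.1 j₀.2).order := ⟨_, rfl⟩
  have hc : ∀ β γ, β < 3 → β + γ ≤ n →
      TieLead (iK (c β γ)) ν (LaurentPolynomial.C ((c β γ).coeff ν)) := by
    intro β γ hβ hγ
    refine ⟨fun m hm => ?_, rfl⟩
    have h4 : (c β γ).coeff m = 0 := by
      by_cases h0 : c β γ = 0
      · simp [h0]
      · have h5 := hmin (β, γ) (Finset.mem_filter.mpr ⟨Finset.mem_product.mpr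
          ⟨Finset.mem_range.mpr hβ, Finset.mem_range.mpr (by omega)⟩, hγ, h0⟩)
        exact HahnSeries.coeff_eq_zero_of_lt_order (hm.trans_le (hν.trans_le h5))
    rw [iK, hmap_coeff, h4, map_zero]
  have hp : form Polynomial.C Polynomial.X (Polynomial.X * (1 + Polynomial.X))
      ((1 + Polynomial.X) ^ 3) n (fun β γ => (c β γ).coeff ν) = 0 := by
    apply Polynomial.toLaurent_injective
    have h4 := congrArg (fun F : AA => F.coeff ν) h
    simp only [form_def, HahnSeries.coeff_sum, HahnSeries.coeff_zero] at h4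
    rw [map_form, map_zero, form_def, ← h4]
    refine Finset.sum_congr rfl fun β hβ => Finset.sum_congr rfl fun γ hγ => ?_
    have h5 := ((hc β γ (Finset.mem_range.mp hβ) (by have := Finset.mem_range.mp hγ; omega)).mul
      (((TieLead.pow ⟨hX, hX0⟩ (n - β - γ)).mul (TieLead.pow ⟨hY, hY0⟩ β)).mul
        (TieLead.pow ⟨hZ, hZ0⟩ γ))).2
    simp only [add_zero] at h5
    rw [h5, RingHom.comp_apply, Polynomial.toLaurent_C]
  have h6 := indep_poly n _ hp j₀.1 j₀.2
    (Finset.mem_range.mp (Finset.mem_product.mp hj₁).1) hj₂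
  rw [hν] at h6
  exact hj₃ (HahnSeries.coeff_order_eq_zero.mp h6)

/-- the exponents -/
def thE (N0 : ℕ) (i : ℤ) : ℤ := N0 * (i * (i - 3)) + if i % 3 = 0 then 0 else 2 * N0

theorem thE_add (N0 : ℕ) (i : ℤ) : thE N0 (i + 3) = thE N0 i + 6 * N0 * i := by
  unfold thE
  rw [Int.add_emod_right]
  ring

theorem thE_cases {N0 : ℕ} (hN0 : 0 < N0) (i : ℤ) :
    ((i = 0 ∨ i = 1 ∨ i = 2 ∨ i = 3) ∧ thE N0 i = 0) ∨
      ((i < 0 ∨ 3 < i) ∧ 0 < thE N0 i ∧ i * (i - 3) ≤ thE N0 i) := by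
  have h0 : (1 : ℤ) ≤ N0 := by exact_mod_cast hN0
  by_cases h : i < 0 ∨ 3 < i
  · have h1 : 0 < i * (i - 3) := by
      rcases h with h | h
      · exact mul_pos_of_neg_of_neg h (by omega)
      · exact mul_pos (by omega) (by omega)
    have h2 : i * (i - 3) ≤ thE N0 i := by
      unfold thE
      split_ifs <;> nlinarith
    exact Or.inr ⟨h, by omega, h2⟩
  · have h1 : i = 0 ∨ i = 1 ∨ i = 2 ∨ i = 3 := by omega
    refine Or.inl ⟨h1, ?_⟩
    rcases h1 with rfl | rfl | rfl | rfl <;> simp [thE] <;> ring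

theorem thE_finite {N0 : ℕ} (hN0 : 0 < N0) (s B : ℤ) : {i | thE N0 i - s * i ≤ B}.Finite := by
  refine (Set.finite_Icc (-(|s| + |B| + 4)) (|s| + |B| + 4)).subset fun i hi => ?_
  have h1 : thE N0 i - s * i ≤ B := hi
  have a1 := abs_nonneg s
  have a2 := abs_nonneg B
  have a3 := le_abs_self s
  have a4 := neg_abs_le s
  have a5 := le_abs_self B
  rcases thE_cases hN0 i with ⟨h, -⟩ | ⟨-, -, h⟩
  · constructor <;> omega
  · constructor
    · by_contra h2
      rw [not_le] at h2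
      nlinarith
    · by_contra h2
      rw [not_le] at h2
      nlinarith

/-- the theta series with periodic coefficients -/
theorem th_series {N0 : ℕ} (hN0 : 0 < N0) (s : ℤ) (c : ℤ → ℂ) :
    ∃ F G : AA, Tw (6 * (N0 : ℤ)) 3 (-(3 * s)) F F ∧ Tw s 0 0 F G ∧ (∀ n, n < 0 → G.coeff n = 0) ∧
      G.coeff 0 = LaurentPolynomial.C (c 0) + LaurentPolynomial.C (c 1) * LaurentPolynomial.T 1 +
        LaurentPolynomial.C (c 2) * LaurentPolynomial.T 2 +
        LaurentPolynomial.C (c 0) * LaurentPolynomial.T 3 := by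
  obtain ⟨F, hF⟩ := exists_series (fun i => thE N0 i - s * i) (fun i => c (i % 3))
    (thE_finite hN0 s)
  obtain ⟨G, hG⟩ := exists_series (thE N0) (fun i => c (i % 3))
    (fun B => by simpa using thE_finite hN0 0 B)
  refine ⟨F, G, fun n i => ?_, fun n i => ?_, fun n hn => ?_, ?_⟩
  · rw [hF, hF, thE_add, Int.add_emod_right]
    refine if_congr ⟨fun h => ?_, fun h => ?_⟩ rfl rfl <;> linarith
  · rw [hF, hG, add_zero, add_zero]
    refine if_congr ⟨fun h => ?_, fun h => ?_⟩ rfl rfl <;> linarith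
  · refine LaurentPolynomial.ext fun i => (hG n i).trans (if_neg fun e => ?_)
    rcases thE_cases hN0 i with ⟨-, h⟩ | ⟨-, h, -⟩ <;> omega
  · refine LaurentPolynomial.ext fun i => (hG 0 i).trans ?_
    simp only [← LaurentPolynomial.single_eq_C_mul_T]
    simp only [AddMonoidAlgebra.coeff_add, Finsupp.add_apply, AddMonoidAlgebra.coeff_single,
      Finsupp.single_apply, LaurentPolynomial.C_apply]
    rcases thE_cases hN0 i with ⟨h, h1⟩ | ⟨h, h1, -⟩
    · rw [if_pos h1.symm]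
      rcases h with rfl | rfl | rfl | rfl <;> simp
    · rw [if_neg (by omega), if_neg (by omega), if_neg (by omega), if_neg (by omega),
        if_neg (by omega)]
      simp

/-- `E i = N0 i (i-3) + (if 3 ∣ i then 0 else 2 N0)` has `E (i+3) = E i + 6 N0 i`, `E ≥ 0`, `E i = 0`
iff `i ∈ {0,1,2,3}`.  Series with exponent `E i - s i` and coefficients depending on `i % 3`:
`X : (0,1,0)`, `Y : (0,1,1)`, `Z : (1,3,3)`.  `Tw s 0 0` relates them to the series with `s = 0`,
to which `indep_tie` applies (`Tw.form`, `Tw.right_eq_zero`). -/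
theorem exists_theta (N0 : ℕ) (hN0 : 0 < N0) (s : ℤ) :
    Nonempty (Theta (6 * (N0 : ℤ)) (3 * s)) := by
  obtain ⟨X, X', a1, a2, a3, a4⟩ := th_series hN0 s (fun i => if i = 1 then 1 else 0)
  obtain ⟨Y, Y', b1, b2, b3, b4⟩ := th_series hN0 s (fun i => if i = 0 then 0 else 1)
  obtain ⟨Z, Z', c1, c2, c3, c4⟩ := th_series hN0 s (fun i => if i = 0 then 1 else 3)
  have t2 : (LaurentPolynomial.T 2 : LP) = LaurentPolynomial.T 1 ^ 2 := by
    rw [LaurentPolynomial.T_pow]; rfl
  have t3 : (LaurentPolynomial.T 3 : LP) = LaurentPolynomial.T 1 ^ 3 := by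
    rw [LaurentPolynomial.T_pow]; rfl
  refine ⟨⟨X, Y, Z, a1, b1, c1, fun n c h => indep_tie X' Y' Z' a3 b3 c3 ?_ ?_ ?_ n c
    ((Tw.form a2 b2 c2 n c).right_eq_zero h)⟩⟩
  · rw [a4]
    simp
  · rw [b4, map_mul, map_add, map_one, Polynomial.toLaurent_X, t2]
    simp only [if_true, one_ne_zero, if_false, OfNat.ofNat_ne_zero, map_zero, map_one]
    ring
  · rw [c4, map_pow, map_add, map_one, Polynomial.toLaurent_X, t2, t3]
    simp only [if_true, one_ne_zero, if_false, OfNat.ofNat_ne_zero, map_one, map_ofNat]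
    ring

/-- the row `i` of a series: the coefficient of `z^i` -/
def cubRow (i : ℤ) : AA →+ KK where
  toFun F := ⟨fun n => co F n i, F.isPWO_support.mono fun n hn h => hn (by simp [co, h])⟩
  map_zero' := by ext n; exact co_zero n i
  map_add' F G := by ext n; exact co_add F G n i

theorem cubRow_coeff (i : ℤ) (F : AA) (n : ℤ) : (cubRow i F).coeff n = co F n i := rfl

theorem cubRow_mul (i : ℤ) (c : KK) (F : AA) : cubRow i (iK c * F) = c * cubRow i F := by
  ext n
  have h1 : (iK c).support ⊆ c.support := fun m hm h => hm (by simp [iK, h])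
  have h2 : (cubRow i F).support ⊆ F.support := fun m hm h => hm (by simp [cubRow_coeff, co, h])
  rw [cubRow_coeff, co, HahnSeries.coeff_mul_left' c.isPWO_support h1,
    HahnSeries.coeff_mul_right' F.isPWO_support h2, AddMonoidAlgebra.coeff_sum,
    Finsupp.finsetSum_apply]
  refine Finset.sum_congr rfl fun p _ => ?_
  rw [iK, hmap_coeff, ← LaurentPolynomial.single_eq_C, AddMonoidAlgebra.coeff_single_zero_mul]
  rfl

theorem cub_eq_zero {N β : ℤ} {F : AA} (h : Tw N 9 β F F)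
    (h0 : ∀ r : Fin 9, cubRow (r.1 : ℤ) F = 0) : F = 0 := by
  have key : ∀ k : ℤ, ∀ r : Fin 9, ∀ n, co F n ((r.1 : ℤ) + 9 * k) = 0 := by
    intro k r
    induction k using Int.induction_on with
    | zero =>
      intro n
      have := congrArg (fun x : KK => x.coeff n) (h0 r)
      simpa [cubRow_coeff] using this
    | succ k ih =>
      intro n
      have := h (n - N * ((r.1 : ℤ) + 9 * k) - β) ((r.1 : ℤ) + 9 * k)
      rw [ih] at this
      rw [← this]
      congr 1
      ring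
    | pred k ih =>
      intro n
      rw [← h n, ← ih (n + N * ((r.1 : ℤ) + 9 * (-(k : ℤ) - 1)) + β)]
      congr 1
      ring
  refine eq_zero_of_co fun n i => ?_
  have h1 : 0 ≤ i % 9 := Int.emod_nonneg _ (by norm_num)
  have h2 : i % 9 < 9 := Int.emod_lt_of_pos _ (by norm_num)
  have := key (i / 9) ⟨(i % 9).toNat, by omega⟩ n
  rw [← this]
  congr 1
  simp only
  omega

theorem cub_dep {K M α : Type*} [Field K] [AddCommGroup M] [Module K M] [Module.Finite K M]
    (s : Finset α) (v : α → M) (h : Module.finrank K M < s.card) :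
    ∃ c : α → K, ∑ a ∈ s, c a • v a = 0 ∧ ∃ a ∈ s, c a ≠ 0 := by
  classical
  have hn : ¬ LinearIndependent K fun a : s => v a.1 := fun hl => by
    have := hl.fintype_card_le_finrank
    rw [Fintype.card_coe] at this
    omega
  obtain ⟨g, hg, a, ha⟩ := Fintype.not_linearIndependent_iff.1 hn
  refine ⟨fun a => if h : a ∈ s then g ⟨a, h⟩ else 0, ?_, a.1, a.2, by simpa using ha⟩
  rw [← hg, ← Finset.sum_coe_sort]
  refine Finset.sum_congr rfl fun x _ => ?_
  simp

theorem cub_gen {K R : Type*} [Field K] [CommRing R] (φ : K →+* R) (row : Fin 9 → R →+ K)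
    (hrow : ∀ r c F, row r (φ c * F) = c * row r F) (X Y Z : R)
    (hinj : ∀ (c0 : K) (c : ℕ → ℕ → K), (∀ r, row r (φ c0 * Y ^ 3 + form φ X Y Z 3 c) = 0) →
      φ c0 * Y ^ 3 + form φ X Y Z 3 c = 0)
    (hind : ∀ c : ℕ → ℕ → K, form φ X Y Z 3 c = 0 → ∀ β γ, β < 3 → β + γ ≤ 3 → c β γ = 0) :
    ∃ κ : ℕ → ℕ → K, Y ^ 3 + form φ X Y Z 3 κ = 0 := by
  obtain ⟨c, hc, a, ha, hca⟩ := cub_dep (K := K) (M := Fin 9 → K)
    ((range 4).sigma fun β => range (3 + 1 - β))
    (fun p r => row r (X ^ (3 - p.1 - p.2) * Y ^ p.1 * Z ^ p.2))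
    (by rw [Module.finrank_fin_fun]; decide)
  have hF0 : φ (c ⟨3, 0⟩) * Y ^ 3 + form φ X Y Z 3 (fun β γ => c ⟨β, γ⟩) = 0 := by
    refine hinj _ _ fun r => ?_
    have := congrFun hc r
    rw [Finset.sum_apply, Finset.sum_sigma, Finset.sum_range_succ] at this
    simp only [Pi.smul_apply, smul_eq_mul, Pi.zero_apply] at this
    rw [map_add, form_def, map_sum, hrow, add_comm, ← this]
    congr 1
    · refine Finset.sum_congr rfl fun β _ => ?_
      rw [map_sum]
      exact Finset.sum_congr rfl fun γ _ => hrow _ _ _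
    · simp
  have h30 : c ⟨3, 0⟩ ≠ 0 := by
    intro h
    rw [h, map_zero, zero_mul, zero_add] at hF0
    obtain ⟨β, γ⟩ := a
    simp only [Finset.mem_sigma, Finset.mem_range] at ha
    by_cases hβ : β < 3
    · exact hca (hind _ hF0 β γ hβ (by omega))
    · obtain rfl : β = 3 := by omega
      obtain rfl : γ = 0 := by omega
      exact hca h
  refine ⟨fun β γ => (c ⟨3, 0⟩)⁻¹ * c ⟨β, γ⟩, ?_⟩
  have h1 : φ (c ⟨3, 0⟩)⁻¹ * (φ (c ⟨3, 0⟩) * Y ^ 3 + form φ X Y Z 3 (fun β γ => c ⟨β, γ⟩)) = 0 := by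
    rw [hF0, mul_zero]
  rw [← h1, mul_add, ← mul_assoc, ← map_mul, inv_mul_cancel₀ h30, map_one, one_mul]
  congr 1
  simp only [form_def, Finset.mul_sum, map_mul, mul_assoc]

/-- ten cubic monomials in the space of series with `Tw N 9 (-3b) F F`, which embeds `KK`-linearly
into `KK^9` by the rows `i = 0..8`; the coefficient of `Y^3` is nonzero by `indep`. -/
theorem Theta.exists_cubic {N b : ℤ} (T : Theta N b) :
    ∃ κ : ℕ → ℕ → KK, T.Y ^ 3 + form iK T.X T.Y T.Z 3 κ = 0 := by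
  refine cub_gen iK (fun r => cubRow (r.1 : ℤ)) (fun r c F => cubRow_mul _ c F) T.X T.Y T.Z
    (fun c0 c h => ?_) (T.indep 3)
  have h1 := (Tw.const N c0).mul (T.qY.pow 3)
  have h2 := T.qX.form T.qY T.qZ 3 c
  have e1 : (0 : ℤ) + 3 * ((3 : ℕ) : ℤ) = 9 := by norm_num
  have e2 : (3 : ℤ) * ((3 : ℕ) : ℤ) = 9 := by norm_num
  rw [e1, zero_add] at h1
  rw [e2] at h2
  exact cub_eq_zero (h1.add h2) h

end Crest.Agent.R259
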