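import Crest.Agent.R259.Defs

/-! Row 259: calculus of the relation `Tw` (`G(z) = Q^β z^α F(Q^s z)`). -/

set_option autoImplicit false

noncomputable section

namespace Crest.Agent.R259

open Finset

theorem co_zero (n i : ℤ) : co 0 n i = 0 := by
  simp [co]

theorem co_add (F G : AA) (n i : ℤ) : co (F + G) n i = co F n i + co G n i := by
  simp [co]

theorem eq_zero_of_co {F : AA} (h : ∀ n i, co F n i = 0) : F = 0 := by
  ext n i
  exact h n i

/-- Cauchy product in both variables (the sum has finite support: `HahnSeries.coeff_mul` and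
`AddMonoidAlgebra` multiplication). -/
theorem co_mul (F G : AA) (n i : ℤ) :
    co (F * G) n i = ∑ᶠ p : ℤ × ℤ, co F p.1 p.2 * co G (n - p.1) (i - p.2) := by
  classical
  have hinj : Set.InjOn (fun q : ℤ × ℤ => q.1)
      (antidiagonal F.isPWO_support G.isPWO_support n : Set (ℤ × ℤ)) := by
    intro q hq q' hq' e
    have h1 := (Finset.mem_antidiagonal.1 (Finset.mem_coe.1 hq)).2.2
    have h2 := (Finset.mem_antidiagonal.1 (Finset.mem_coe.1 hq')).2.2
    have e' : q.1 = q'.1 := e
    exact Prod.ext e' (by omega)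
  rw [finsum_eq_sum_of_support_subset (s := ((antidiagonal F.isPWO_support G.isPWO_support n).image
    fun q => q.1).biUnion fun a => {a} ×ˢ (F.coeff a).coeff.support)]
  · rw [Finset.sum_biUnion, Finset.sum_image hinj, co, HahnSeries.coeff_mul,
      AddMonoidAlgebra.coeff_sum, Finsupp.finsetSum_apply]
    · refine Finset.sum_congr rfl fun q hq => ?_
      have h1 := (Finset.mem_antidiagonal.1 hq).2.2
      rw [Finset.sum_product, Finset.sum_singleton, AddMonoidAlgebra.coeff_mul_apply_left,
        Finsupp.sum]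
      refine Finset.sum_congr rfl fun j _ => ?_
      simp only [co]
      rw [show n - q.1 = q.2 by omega, show i - j = -j + i by omega]
    · intro a _ b _ hab
      refine Finset.disjoint_left.2 fun q hq hq' => hab ?_
      rw [← Finset.mem_singleton.1 (Finset.mem_product.1 hq).1,
        ← Finset.mem_singleton.1 (Finset.mem_product.1 hq').1]
  · intro p hp
    have h1 : co F p.1 p.2 ≠ 0 := left_ne_zero_of_mul hp
    have h2 : co G (n - p.1) (i - p.2) ≠ 0 := right_ne_zero_of_mul hp
    have h3 : F.coeff p.1 ≠ 0 := fun h => h1 (by simp [co, h])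
    have h4 : G.coeff (n - p.1) ≠ 0 := fun h => h2 (by simp [co, h])
    refine Finset.mem_coe.2 (Finset.mem_biUnion.2 ⟨p.1, Finset.mem_image.2 ⟨(p.1, n - p.1),
      Finset.mem_antidiagonal.2 ⟨h3, h4, by simp⟩, rfl⟩, Finset.mem_product.2
        ⟨Finset.mem_singleton_self _, Finsupp.mem_support_iff.2 h1⟩⟩)

theorem co_iK (c : KK) (n i : ℤ) : co (iK c) n i = if i = 0 then c.coeff n else 0 := by
  unfold co iK
  rw [hmap_coeff, ← LaurentPolynomial.single_eq_C, AddMonoidAlgebra.coeff_single,
    Finsupp.single_apply]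
  simp only [eq_comm]

/-- reindex `co_mul` along the bijection `(n₁, i₁) ↦ (n₁ + s i₁ + β, i₁ + α)`. -/
theorem Tw.mul {s α β α' β' : ℤ} {F G F' G' : AA} (h : Tw s α β F G) (h' : Tw s α' β' F' G') :
    Tw s (α + α') (β + β') (F * F') (G * G') := by
  intro n i
  rw [co_mul, co_mul]
  refine (finsum_eq_of_bijective (fun p : ℤ × ℤ => (p.1 + s * p.2 + β, p.2 + α)) ⟨?_, ?_⟩
    fun p => ?_).symm
  · intro p q e
    obtain ⟨e1, e2⟩ := Prod.mk.inj e
    have e3 : p.2 = q.2 := by omega
    rw [e3] at e1
    exact Prod.ext (by omega) e3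
  · intro q
    refine ⟨(q.1 - s * (q.2 - α) - β, q.2 - α), Prod.ext ?_ ?_⟩
    · simp only; ring
    · simp only; ring
  · rw [← h p.1 p.2, ← h' (n - p.1) (i - p.2)]
    congr 2 <;> ring

theorem Tw.add {s α β : ℤ} {F G F' G' : AA} (h : Tw s α β F G) (h' : Tw s α β F' G') :
    Tw s α β (F + F') (G + G') := by
  intro n i
  rw [co_add, co_add, h n i, h' n i]

theorem Tw.zero (s α β : ℤ) : Tw s α β 0 0 := by
  intro n i
  rw [co_zero, co_zero]

theorem Tw.const (s : ℤ) (c : KK) : Tw s 0 0 (iK c) (iK c) := by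
  intro n i
  rw [co_iK, co_iK, add_zero, add_zero]
  split_ifs with hi
  · rw [hi, mul_zero, add_zero]
  · rfl

theorem Tw.pow {s α β : ℤ} {F G : AA} (h : Tw s α β F G) (n : ℕ) :
    Tw s (α * n) (β * n) (F ^ n) (G ^ n) := by
  induction n with
  | zero =>
    have := Tw.const s 1
    simpa using this
  | succ k ih =>
    have := ih.mul h
    rw [pow_succ, pow_succ]
    push_cast
    rw [mul_add, mul_add, mul_one, mul_one]
    exact this

theorem Tw.form {s α β : ℤ} {X Y Z X' Y' Z' : AA} (hX : Tw s α β X X') (hY : Tw s α β Y Y')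
    (hZ : Tw s α β Z Z') (n : ℕ) (c : ℕ → ℕ → KK) :
    Tw s (α * n) (β * n) (form iK X Y Z n c) (form iK X' Y' Z' n c) := by
  have hsum : ∀ {ι : Type} (t : Finset ι) (f g : ι → AA),
      (∀ a ∈ t, Tw s (α * n) (β * n) (f a) (g a)) →
        Tw s (α * n) (β * n) (∑ a ∈ t, f a) (∑ a ∈ t, g a) := by
    intro ι t f g
    classical
    induction t using Finset.induction_on with
    | empty => intro _; simpa using Tw.zero s _ _
    | insert a t ha ih =>
      intro hh
      rw [Finset.sum_insert ha, Finset.sum_insert ha]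
      exact (hh a (Finset.mem_insert_self _ _)).add
        (ih fun b hb => hh b (Finset.mem_insert_of_mem hb))
  rw [form_def, form_def]
  refine hsum _ _ _ fun b _ => hsum _ _ _ fun g hg => ?_
  have hn : (n : ℤ) = ((n - b - g : ℕ) : ℤ) + (b : ℤ) + (g : ℤ) := by
    have := Finset.mem_range.1 hg
    omega
  have := (Tw.const s (c b g)).mul (((hX.pow (n - b - g)).mul (hY.pow b)).mul (hZ.pow g))
  rw [zero_add, zero_add, ← mul_add, ← mul_add, ← mul_add, ← mul_add, ← hn] at this
  exact this

theorem Tw.right_eq_zero {s α β : ℤ} {F G : AA} (h : Tw s α β F G) (hF : F = 0) : G = 0 := by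
  refine eq_zero_of_co fun n i => ?_
  have := h (n - s * (i - α) - β) (i - α)
  rw [hF, co_zero, show n - s * (i - α) - β + s * (i - α) + β = n by ring,
    show i - α + α = i by ring] at this
  exact this

/-- the lowest `Q`-term of a quasi-periodic series is supported in a window of length `α`. -/
theorem Tw.lead_bound {N α β : ℤ} {F : AA} (h : Tw N α β F F) {ν i : ℤ}
    (hν : ∀ n, n < ν → F.coeff n = 0) (hi : co F ν i ≠ 0) :
    0 ≤ N * i + β ∧ N * (i - α) + β ≤ 0 := by
  have hz : ∀ n j, n < ν → co F n j = 0 := fun n j hn => by simp [co, hν n hn]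
  constructor
  · by_contra hc
    refine hi ?_
    rw [← h ν i]
    exact hz _ _ (by omega)
  · by_contra hc
    refine hi ?_
    have := h (ν - N * (i - α) - β) (i - α)
    rw [show ν - N * (i - α) - β + N * (i - α) + β = ν by ring,
      show i - α + α = i by ring] at this
    rw [this]
    exact hz _ _ (by omega)

end Crest.Agent.R259
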